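import Vale.Agent.P338.Lang

/-!
# Renaming of registers

A program over a small concrete register type `L` can be run over any register type `R` along an
injective map `e : L → R`; the registers outside the range of `e` are not touched.
-/

namespace Vale.Agent.P338

variable {L R Γ : Type}

/-- The action on the registers in the range of `e`. -/
noncomputable def renOp (e : L → R) (f : L → Op Γ) (r : R) : Op Γ :=
  open Classical in if h : ∃ l, e l = r then f h.choose else .nop

/-- The store `s`, overwritten by `t` on the range of `e`. -/
noncomputable def put (e : L → R) (t : Store L Γ) (s : Store R Γ) : Store R Γ := fun r =>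
  open Classical in if h : ∃ l, e l = r then t h.choose else s r

/-- The program `p` with registers renamed along `e`. -/
noncomputable def Prog.ren (e : L → R) : Prog L Γ → Prog R Γ
  | .act f => .act fun t => renOp e (f (t ∘ e))
  | .seq p q => .seq (p.ren e) (q.ren e)
  | .branch f => .branch fun t => (f (t ∘ e)).ren e
  | .loop c p => .loop (fun t => c (t ∘ e)) (p.ren e)

theorem renOp_apply {e : L → R} (he : Function.Injective e) (f : L → Op Γ) (l : L) :
    renOp e f (e l) = f l := by
  have h : ∃ l', e l' = e l := ⟨l, rfl⟩
  rw [renOp, dif_pos h, he h.choose_spec]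

theorem renOp_of_not {e : L → R} (f : L → Op Γ) {r : R} (h : ¬ ∃ l, e l = r) :
    renOp e f r = .nop := by
  rw [renOp, dif_neg h]

@[simp] theorem put_apply {e : L → R} (he : Function.Injective e) (t : Store L Γ) (s : Store R Γ)
    (l : L) : put e t s (e l) = t l := by
  have h : ∃ l', e l' = e l := ⟨l, rfl⟩
  rw [put, dif_pos h, he h.choose_spec]

theorem put_of_not {e : L → R} (t : Store L Γ) (s : Store R Γ) {r : R} (h : ¬ ∃ l, e l = r) :
    put e t s r = s r := by
  rw [put, dif_neg h]

theorem put_comp {e : L → R} (he : Function.Injective e) (t : Store L Γ) (s : Store R Γ) :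
    (fun l => put e t s (e l)) = t := funext fun l => put_apply he t s l

/-- Reading back: a store is its own restriction put back. -/
theorem put_self {e : L → R} (he : Function.Injective e) (s : Store R Γ) :
    put e (fun l => s (e l)) s = s := by
  funext r
  by_cases h : ∃ l, e l = r
  · obtain ⟨l, rfl⟩ := h
    rw [put_apply he]
  · rw [put_of_not _ _ h]

theorem put_put {e : L → R} (he : Function.Injective e) (t t' : Store L Γ) (s : Store R Γ) :
    put e t (put e t' s) = put e t s := by
  funext r
  by_cases h : ∃ l, e l = r
  · obtain ⟨l, rfl⟩ := h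
    rw [put_apply he, put_apply he]
  · rw [put_of_not _ _ h, put_of_not _ _ h, put_of_not _ _ h]

theorem put_tops {e : L → R} (he : Function.Injective e) (t : Store L Γ) (s : Store R Γ) :
    (Store.tops (put e t s)) ∘ e = t.tops := by
  funext l
  simp only [Function.comp, Store.tops, put_apply he]

theorem put_update {e : L → R} (he : Function.Injective e) [DecidableEq L] [DecidableEq R]
    (t : Store L Γ) (s : Store R Γ) (l : L) (x : List Γ) :
    put e (Function.update t l x) s = Function.update (put e t s) (e l) x := by
  funext r
  by_cases h : ∃ l', e l' = r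
  · obtain ⟨l', rfl⟩ := h
    rw [put_apply he]
    by_cases hl : l' = l
    · subst hl; simp
    · rw [Function.update_of_ne hl, Function.update_of_ne (fun hh => hl (he hh)), put_apply he]
  · rw [put_of_not _ _ h, Function.update_of_ne (fun hh => h ⟨l, hh.symm⟩), put_of_not _ _ h]

/-- **Renaming.** -/
theorem Runs.ren {e : L → R} (he : Function.Injective e) {p : Prog L Γ} {t t' : Store L Γ} {c : ℕ}
    (h : Runs p t t' c) (s : Store R Γ) : Runs (p.ren e) (put e t s) (put e t' s) c := by
  induction h with
  | act f t =>
    refine (Runs.act _ _).conv ?_ le_rfl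
    funext r
    by_cases h : ∃ l, e l = r
    · obtain ⟨l, rfl⟩ := h
      rw [renOp_apply he, put_apply he, put_apply he, put_tops he]
    · rw [renOp_of_not _ h, put_of_not _ _ h, put_of_not _ _ h]; rfl
  | seq _ _ ih₁ ih₂ => exact ih₁.seq ih₂
  | @branch f t t' c _ ih =>
    refine Runs.branch ?_
    rw [put_tops he]
    exact ih
  | @loop_stop c p t h => exact Runs.loop_stop (by rw [put_tops he]; exact h)
  | @loop_step c p t t₁ t₂ c₁ c₂ h _ _ ih₁ ih₂ =>
    exact Runs.loop_step (by rw [put_tops he]; exact h) ih₁ ih₂
  | weaken _ hc ih => exact ih.weaken hc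

/-- Renaming, applied to an arbitrary store `s` whose restriction along `e` is `t`. -/
theorem Runs.ren' {e : L → R} (he : Function.Injective e) {p : Prog L Γ} {t t' : Store L Γ} {c : ℕ}
    (h : Runs p t t' c) (s : Store R Γ) (hs : ∀ l, s (e l) = t l) :
    Runs (p.ren e) s (put e t' s) c := by
  have := h.ren he s
  have hs' : put e t s = s := by
    rw [← funext hs]; exact put_self he s
  rwa [hs'] at this

/-- Renaming for a program that changes only one register. -/
theorem Runs.ren_update {e : L → R} (he : Function.Injective e) [DecidableEq L] [DecidableEq R]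
    {p : Prog L Γ} {t : Store L Γ} {l : L} {x : List Γ} {c : ℕ}
    (h : Runs p t (Function.update t l x) c) (s : Store R Γ) (hs : ∀ l, s (e l) = t l) :
    Runs (p.ren e) s (Function.update s (e l) x) c := by
  have h1 := h.ren' he s hs
  have hs' : put e t s = s := by
    rw [← funext hs]; exact put_self he s
  rwa [put_update he, hs'] at h1

end Vale.Agent.P338
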