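import Vale.Agent.P338.H763.Lib

/-!
# For-loops over rulers

Variants of the rules for `Prog.forR` in which the family of stores contains the full ruler, so
that initial and final stores are members of the family.
-/

namespace Vale.Agent.P338.H666

open Vale.Agent.P338

variable {R Γ : Type} [DecidableEq R]

theorem update_twice {r r' : R} (s : Store R Γ) (u v u' v' : List Γ) :
    Function.update (Function.update (Function.update (Function.update s r u) r' v) r u') r' v' =
      Function.update (Function.update s r u') r' v' := by
  funext x
  by_cases h1 : x = r'
  · subst h1; simp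
  · by_cases h2 : x = r
    · subst h2; simp [h1]
    · simp [h1, h2]

/-- The for-loop rule with variable costs.  `S k` is the store before round `k` (with the ruler
`r` at its full value and the scratch register `r'` empty); the body must not touch `r`, `r'`. -/
theorem forR_fam' {r r' : R} (hrr : r ≠ r') {p : Prog R Γ} (l : List Γ) (S : ℕ → Store R Γ)
    (c : ℕ → ℕ) (hr : ∀ k ≤ l.length, S k r = l) (hr' : ∀ k ≤ l.length, S k r' = [])
    (hp : ∀ k < l.length, ∀ u v : List Γ,
      Runs p (Function.update (Function.update (S k) r u) r' v)
        (Function.update (Function.update (S (k + 1)) r u) r' v) (c k)) :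
    Runs (.forR r r' p) (S 0) (S l.length)
      ((∑ k ∈ Finset.range l.length, c k) + 4 * l.length + 2) := by
  have key : ∀ n k, n + k = l.length →
      Runs (.whileNE r (.seq (.mv r r') p))
        (Function.update (Function.update (S k) r (l.drop k)) r' (l.take k).reverse)
        (Function.update (Function.update (S l.length) r []) r' l.reverse)
        ((∑ i ∈ Finset.range n, c (k + i)) + 2 * n + 1) := by
    intro n
    induction n with
    | zero =>
      intro k hk
      obtain rfl : k = l.length := by omega
      refine (Runs.whileNE_nil (by simp [hrr])).conv ?_ (by simp)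
      simp
    | succ n ih =>
      intro k hk
      have hk' : k < l.length := by omega
      have hd : l.drop k = l[k] :: l.drop (k + 1) := List.drop_eq_getElem_cons hk'
      have ht : (l.take (k + 1)).reverse = l[k] :: (l.take k).reverse := by
        rw [List.take_succ_eq_append_getElem hk', List.reverse_append]; simp
      have h1 : Runs (.mv r r')
          (Function.update (Function.update (S k) r (l.drop k)) r' (l.take k).reverse)
          (Function.update (Function.update (S k) r (l.drop (k + 1))) r'
            (l.take (k + 1)).reverse) 1 := by
        refine (Runs.mv_cons hrr (a := l[k]) (l := l.drop (k + 1)) ?_).conv ?_ le_rfl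
        · rw [Function.update_of_ne hrr, Function.update_self, hd]
        · rw [Function.update_self, ht, update_twice]
      have h2 := hp k hk' (l.drop (k + 1)) (l.take (k + 1)).reverse
      have h3 := ih (k + 1) (by omega)
      have hne : (Function.update (Function.update (S k) r (l.drop k)) r' (l.take k).reverse) r
          = l[k] :: l.drop (k + 1) := by
        rw [Function.update_of_ne hrr, Function.update_self, hd]
      refine (Runs.whileNE_cons hne (h1.seq h2) h3).weaken ?_
      rw [Finset.sum_range_succ']
      have : ∀ i, c (k + 1 + i) = c (k + (i + 1)) := fun i => by congr 1; omega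
      simp only [this, Nat.add_zero]
      omega
  have h0 := key l.length 0 (by omega)
  have e0 : Function.update (Function.update (S 0) r (l.drop 0)) r' (l.take 0).reverse = S 0 := by
    funext x
    by_cases h1 : x = r'
    · subst h1; simp [hr' 0 (Nat.zero_le _)]
    · by_cases h2 : x = r
      · subst h2; simp [h1, hr 0 (Nat.zero_le _)]
      · simp [h1, h2]
  rw [e0] at h0
  refine (h0.seq' (Runs.flip hrr.symm _) le_rfl).conv ?_ ?_
  · funext x
    by_cases h2 : x = r
    · subst h2; simp [hrr, hr _ le_rfl]
    · by_cases h1 : x = r'
      · subst h1; simp [h2, hr' _ le_rfl]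
      · simp [h1, h2]
  · simp; omega

/-- The for-loop rule with constant cost `c` of the body. -/
theorem forR_fam {r r' : R} (hrr : r ≠ r') {p : Prog R Γ} (l : List Γ) (S : ℕ → Store R Γ)
    (c : ℕ) (hr : ∀ k ≤ l.length, S k r = l) (hr' : ∀ k ≤ l.length, S k r' = [])
    (hp : ∀ k < l.length, ∀ u v : List Γ,
      Runs p (Function.update (Function.update (S k) r u) r' v)
        (Function.update (Function.update (S (k + 1)) r u) r' v) c) :
    Runs (.forR r r' p) (S 0) (S l.length) (l.length * (c + 4) + 2) := by
  refine (forR_fam' hrr l S (fun _ => c) hr hr' hp).weaken ?_
  simp only [Finset.sum_const, Finset.card_range, smul_eq_mul]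
  ring_nf; omega

end Vale.Agent.P338.H666
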