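import Vale.Agent.P338.CoreSpecE
import Vale.Agent.P338.H666.Loop
import Vale.Agent.P338.H666.Rename

/-!
# Rotation of a stream, and parallel selection from a stream and its rotated copy

Programs over a small register type `SR`, alphabet `Bool`.
-/

namespace Vale.Agent.P338.H666

open Vale.Agent.P338 Vale.Agent.P338.E

/-- Registers: data `X`, rotated copy `Y`, output `O`, temporaries `T U`, rotation ruler `M`,
word ruler `W`, block counters `J I`, rulers `K N`; primed = scratch partner of the ruler. -/
inductive SR : Type
  | X | Y | O | T | U | M | M' | W | W' | J | J' | I | I' | K | K' | N | N'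
  deriving DecidableEq

/-- The store with scratch registers empty. -/
structure SS where
  X : List Bool := []
  Y : List Bool := []
  O : List Bool := []
  T : List Bool := []
  U : List Bool := []
  M : List Bool := []
  M' : List Bool := []
  W : List Bool := []
  W' : List Bool := []
  J : List Bool := []
  J' : List Bool := []
  I : List Bool := []
  I' : List Bool := []
  K : List Bool := []
  K' : List Bool := []
  N : List Bool := []
  N' : List Bool := []

/-- The store of a structure. -/
def SS.st (s : SS) : Store SR Bool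
  | .X => s.X | .Y => s.Y | .O => s.O | .T => s.T | .U => s.U
  | .M => s.M | .M' => s.M' | .W => s.W | .W' => s.W'
  | .J => s.J | .J' => s.J' | .I => s.I | .I' => s.I'
  | .K => s.K | .K' => s.K' | .N => s.N | .N' => s.N'

/-- every store is the store of a structure -/
theorem exists_st (s : Store SR Bool) : ∃ t : SS, t.st = s :=
  ⟨⟨s .X, s .Y, s .O, s .T, s .U, s .M, s .M', s .W, s .W', s .J, s .J', s .I, s .I', s .K, s .K',
    s .N, s .N'⟩, by funext r; cases r <;> rfl⟩

/-- One symbol from `X` to `O`; the parallel symbol of `Y` is dropped. -/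
def takeX : Prog SR Bool := .act fun t r =>
  match r with
  | .X => .pop
  | .Y => .pop
  | .O => match t .X with
    | none => .nop
    | some a => .push a
  | _ => .nop

/-- One symbol from `Y` to `O`; the parallel symbol of `X` is dropped. -/
def takeY : Prog SR Bool := .act fun t r =>
  match r with
  | .X => .pop
  | .Y => .pop
  | .O => match t .Y with
    | none => .nop
    | some a => .push a
  | _ => .nop

theorem takeX_runs (s : SS) :
    Runs takeX s.st { s with X := s.X.tail, Y := s.Y.tail, O := s.X.take 1 ++ s.O }.st 1 := by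
  apply Runs.act_eq
  intro r
  cases r <;> try rfl
  show Op.app (match s.X.head? with | none => .nop | some a => .push a) s.O = s.X.take 1 ++ s.O
  cases s.X <;> rfl

theorem takeY_runs (s : SS) :
    Runs takeY s.st { s with X := s.X.tail, Y := s.Y.tail, O := s.Y.take 1 ++ s.O }.st 1 := by
  apply Runs.act_eq
  intro r
  cases r <;> try rfl
  show Op.app (match s.Y.head? with | none => .nop | some a => .push a) s.O = s.Y.take 1 ++ s.O
  cases s.Y <;> rfl

section upd

variable (s : SS) (l : List Bool)

theorem upd_X : Function.update s.st SR.X l = { s with X := l }.st := by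
  funext r; cases r <;> rfl
theorem upd_Y : Function.update s.st SR.Y l = { s with Y := l }.st := by
  funext r; cases r <;> rfl
theorem upd_O : Function.update s.st SR.O l = { s with O := l }.st := by
  funext r; cases r <;> rfl
theorem upd_T : Function.update s.st SR.T l = { s with T := l }.st := by
  funext r; cases r <;> rfl
theorem upd_U : Function.update s.st SR.U l = { s with U := l }.st := by
  funext r; cases r <;> rfl
theorem upd_M : Function.update s.st SR.M l = { s with M := l }.st := by
  funext r; cases r <;> rfl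
theorem upd_Mp : Function.update s.st SR.M' l = { s with M' := l }.st := by
  funext r; cases r <;> rfl
theorem upd_W : Function.update s.st SR.W l = { s with W := l }.st := by
  funext r; cases r <;> rfl
theorem upd_Wp : Function.update s.st SR.W' l = { s with W' := l }.st := by
  funext r; cases r <;> rfl
theorem upd_J : Function.update s.st SR.J l = { s with J := l }.st := by
  funext r; cases r <;> rfl
theorem upd_Jp : Function.update s.st SR.J' l = { s with J' := l }.st := by
  funext r; cases r <;> rfl
theorem upd_I : Function.update s.st SR.I l = { s with I := l }.st := by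
  funext r; cases r <;> rfl
theorem upd_Ip : Function.update s.st SR.I' l = { s with I' := l }.st := by
  funext r; cases r <;> rfl
theorem upd_K : Function.update s.st SR.K l = { s with K := l }.st := by
  funext r; cases r <;> rfl
theorem upd_Kp : Function.update s.st SR.K' l = { s with K' := l }.st := by
  funext r; cases r <;> rfl
theorem upd_N : Function.update s.st SR.N l = { s with N := l }.st := by
  funext r; cases r <;> rfl
theorem upd_Np : Function.update s.st SR.N' l = { s with N' := l }.st := by
  funext r; cases r <;> rfl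

end upd

theorem take_one_append (l : List Bool) (i : ℕ) :
    (l.drop i).take 1 ++ (l.take i).reverse = (l.take (i + 1)).reverse := by
  rw [List.take_add, List.reverse_append]
  congr 1
  cases h : l.drop i <;> simp

theorem rev_take_add (l : List Bool) (a w : ℕ) :
    ((l.drop a).take w).reverse ++ (l.take a).reverse = (l.take (a + w)).reverse := by
  rw [List.take_add, List.reverse_append]

/-- `w` symbols from `X` to `O`, the parallel ones of `Y` are dropped -/
def takeWX : Prog SR Bool := .forR .W .W' takeX
/-- `w` symbols from `Y` to `O`, the parallel ones of `X` are dropped -/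
def takeWY : Prog SR Bool := .forR .W .W' takeY

theorem takeWX_runs (s : SS) (hW' : s.W' = []) :
    Runs takeWX s.st { s with
      X := s.X.drop s.W.length, Y := s.Y.drop s.W.length,
      O := (s.X.take s.W.length).reverse ++ s.O }.st (s.W.length * 5 + 2) := by
  refine (forR_fam (p := takeX) (r := SR.W) (r' := SR.W') (by decide) s.W
    (fun i => { s with X := s.X.drop i, Y := s.Y.drop i, O := (s.X.take i).reverse ++ s.O }.st) 1
    (fun _ _ => rfl) (fun _ _ => hW') ?_)
  intro i hi u v
  rw [upd_W, upd_Wp, upd_W, upd_Wp]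
  refine (takeX_runs _).conv ?_ le_rfl
  simp only [List.tail_drop]
  rw [← List.append_assoc, take_one_append]

theorem takeWY_runs (s : SS) (hW' : s.W' = []) :
    Runs takeWY s.st { s with
      X := s.X.drop s.W.length, Y := s.Y.drop s.W.length,
      O := (s.Y.take s.W.length).reverse ++ s.O }.st (s.W.length * 5 + 2) := by
  refine (forR_fam (p := takeY) (r := SR.W) (r' := SR.W') (by decide) s.W
    (fun i => { s with X := s.X.drop i, Y := s.Y.drop i, O := (s.Y.take i).reverse ++ s.O }.st) 1
    (fun _ _ => rfl) (fun _ _ => hW') ?_)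
  intro i hi u v
  rw [upd_W, upd_Wp, upd_W, upd_Wp]
  refine (takeY_runs _).conv ?_ le_rfl
  simp only [List.tail_drop]
  rw [← List.append_assoc, take_one_append]

/-- `|J| * |W|` symbols from `X`, then `|I| * |W|` symbols from `Y` -/
def selBlk : Prog SR Bool := .seq (.forR .J .J' takeWX) (.forR .I .I' takeWY)

theorem takeJ_runs (s : SS) (hW' : s.W' = []) (hJ' : s.J' = []) :
    Runs (.forR .J .J' takeWX) s.st { s with
      X := s.X.drop (s.J.length * s.W.length), Y := s.Y.drop (s.J.length * s.W.length),
      O := (s.X.take (s.J.length * s.W.length)).reverse ++ s.O }.st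
      (s.J.length * (s.W.length * 5 + 6) + 2) := by
  have h := forR_fam (p := takeWX) (r := SR.J) (r' := SR.J') (by decide) s.J
    (fun i => { s with
      X := s.X.drop (i * s.W.length), Y := s.Y.drop (i * s.W.length),
      O := (s.X.take (i * s.W.length)).reverse ++ s.O }.st) (s.W.length * 5 + 2)
    (fun _ _ => rfl) (fun _ _ => hJ') (by
      intro i hi u v
      rw [upd_J, upd_Jp, upd_J, upd_Jp]
      refine (takeWX_runs _ (by exact hW')).conv ?_ le_rfl
      simp only [List.drop_drop]
      rw [← List.append_assoc, rev_take_add, ← Nat.succ_mul])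
  simpa using h

theorem takeI_runs (s : SS) (hW' : s.W' = []) (hI' : s.I' = []) :
    Runs (.forR .I .I' takeWY) s.st { s with
      X := s.X.drop (s.I.length * s.W.length), Y := s.Y.drop (s.I.length * s.W.length),
      O := (s.Y.take (s.I.length * s.W.length)).reverse ++ s.O }.st
      (s.I.length * (s.W.length * 5 + 6) + 2) := by
  have h := forR_fam (p := takeWY) (r := SR.I) (r' := SR.I') (by decide) s.I
    (fun i => { s with
      X := s.X.drop (i * s.W.length), Y := s.Y.drop (i * s.W.length),
      O := (s.Y.take (i * s.W.length)).reverse ++ s.O }.st) (s.W.length * 5 + 2)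
    (fun _ _ => rfl) (fun _ _ => hI') (by
      intro i hi u v
      rw [upd_I, upd_Ip, upd_I, upd_Ip]
      refine (takeWY_runs _ (by exact hW')).conv ?_ le_rfl
      simp only [List.drop_drop]
      rw [← List.append_assoc, rev_take_add, ← Nat.succ_mul])
  simpa using h

theorem selBlk_runs (s : SS) (A B : List Bool) (pos : ℕ) (hX : s.X = A.drop pos)
    (hY : s.Y = B.drop pos) (hW' : s.W' = []) (hJ' : s.J' = []) (hI' : s.I' = []) :
    Runs selBlk s.st { s with
      X := A.drop (pos + (s.J.length + s.I.length) * s.W.length),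
      Y := B.drop (pos + (s.J.length + s.I.length) * s.W.length),
      O := (alt1 (s.J.length * s.W.length) (s.I.length * s.W.length) A B pos).reverse ++ s.O }.st
      ((s.J.length + s.I.length) * (s.W.length * 5 + 6) + 4) := by
  refine ((takeJ_runs s hW' hJ').seq (takeI_runs _ (by exact hW') (by exact hI'))).conv ?_ ?_
  · simp only [hX, hY, List.drop_drop, alt1, List.reverse_append, List.append_assoc, Nat.add_mul,
      Nat.add_assoc]
  · simp only []; ring_nf; omega

/-! ### Rotation -/

/-- one symbol from `T` to both `U` and `X` -/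
def dupU : Prog SR Bool := .act fun t r =>
  match r with
  | .T => .pop
  | .U => match t .T with
    | none => .nop
    | some a => .push a
  | .X => match t .T with
    | none => .nop
    | some a => .push a
  | _ => .nop

/-- one symbol from `T` to both `Y` and `X` -/
def dupY : Prog SR Bool := .act fun t r =>
  match r with
  | .T => .pop
  | .Y => match t .T with
    | none => .nop
    | some a => .push a
  | .X => match t .T with
    | none => .nop
    | some a => .push a
  | _ => .nop

theorem dupU_runs (s : SS) :
    Runs dupU s.st { s with T := s.T.tail, U := s.T.take 1 ++ s.U, X := s.T.take 1 ++ s.X }.st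
      1 := by
  apply Runs.act_eq
  intro r
  cases r <;> try rfl
  · show Op.app (match s.T.head? with | none => .nop | some a => .push a) s.X = s.T.take 1 ++ s.X
    cases s.T <;> rfl
  · show Op.app (match s.T.head? with | none => .nop | some a => .push a) s.U = s.T.take 1 ++ s.U
    cases s.T <;> rfl

theorem dupY_runs (s : SS) :
    Runs dupY s.st { s with T := s.T.tail, Y := s.T.take 1 ++ s.Y, X := s.T.take 1 ++ s.X }.st
      1 := by
  apply Runs.act_eq
  intro r
  cases r <;> try rfl
  · show Op.app (match s.T.head? with | none => .nop | some a => .push a) s.X = s.T.take 1 ++ s.X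
    cases s.T <;> rfl
  · show Op.app (match s.T.head? with | none => .nop | some a => .push a) s.Y = s.T.take 1 ++ s.Y
    cases s.T <;> rfl

theorem dupUM_runs (s : SS) (hM' : s.M' = []) :
    Runs (.forR .M .M' dupU) s.st { s with
      T := s.T.drop s.M.length, U := (s.T.take s.M.length).reverse ++ s.U,
      X := (s.T.take s.M.length).reverse ++ s.X }.st (s.M.length * 5 + 2) := by
  refine (forR_fam (p := dupU) (r := SR.M) (r' := SR.M') (by decide) s.M
    (fun i => { s with
      T := s.T.drop i, U := (s.T.take i).reverse ++ s.U,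
      X := (s.T.take i).reverse ++ s.X }.st) 1
    (fun _ _ => rfl) (fun _ _ => hM') ?_)
  intro i hi u v
  rw [upd_M, upd_Mp, upd_M, upd_Mp]
  refine (dupU_runs _).conv ?_ le_rfl
  simp only [List.tail_drop]
  rw [← List.append_assoc, take_one_append, ← List.append_assoc, take_one_append]

theorem dupYT_runs (s : SS) :
    Runs (.whileNE .T dupY) s.st { s with
      T := [], Y := s.T.reverse ++ s.Y, X := s.T.reverse ++ s.X }.st (s.T.length * 2 + 1) := by
  obtain ⟨X, Y, O, T, U, M, M', W, W', J, J', I, I', K, K', N, N'⟩ := s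
  induction T generalizing X Y with
  | nil => exact (Runs.whileNE_nil rfl).weaken (by simp)
  | cons a T ih =>
    have h1 : (SS.st ⟨X, Y, O, a :: T, U, M, M', W, W', J, J', I, I', K, K', N, N'⟩) SR.T
      = a :: T := rfl
    refine (Runs.whileNE_cons h1 (dupY_runs _) (ih _ _)).conv ?_ ?_
    · simp
    · simp only [List.length_cons]; omega

theorem flip_XT (s : SS) : Runs (.flip .X .T) s.st
    { s with X := [], T := s.X.reverse ++ s.T }.st (2 * s.X.length + 1) :=
  (Runs.flip (by decide) _).conv (by rw [upd_X, upd_T]; rfl) le_rfl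

theorem flip_UT (s : SS) : Runs (.flip .U .T) s.st
    { s with U := [], T := s.U.reverse ++ s.T }.st (2 * s.U.length + 1) :=
  (Runs.flip (by decide) _).conv (by rw [upd_U, upd_T]; rfl) le_rfl

theorem flip_TY (s : SS) : Runs (.flip .T .Y) s.st
    { s with T := [], Y := s.T.reverse ++ s.Y }.st (2 * s.T.length + 1) :=
  (Runs.flip (by decide) _).conv (by rw [upd_T, upd_Y]; rfl) le_rfl

/-- `Y := rotR |M| X` -/
def rotate : Prog SR Bool :=
  .seq (.flip .X .T) (.seq (.forR .M .M' dupU) (.seq (.whileNE .T dupY)
    (.seq (.flip .U .T) (.flip .T .Y))))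

theorem rotate_runs (s : SS) (hM' : s.M' = []) (hY : s.Y = []) (hT : s.T = []) (hU : s.U = []) :
    Runs rotate s.st { s with Y := rotR s.M.length s.X }.st
      (4 * s.X.length + 9 * s.M.length + 6) := by
  have h1 := flip_XT s
  have h2 := dupUM_runs { s with X := [], T := s.X.reverse ++ s.T } hM'
  have h3 := h1.seq (h2.seq ((dupYT_runs _).seq ((flip_UT _).seq (flip_TY _))))
  refine h3.conv ?_ ?_
  · simp only [hT, hU, hY, List.append_nil, List.drop_reverse, List.take_reverse,
      List.reverse_reverse, rotR, List.take_append_drop]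
  · simp only [hT, hU, List.append_nil, List.length_reverse, List.length_drop, List.length_take]
    omega

/-! ### The alternation loop -/

theorem length_alt1 (p q : ℕ) (X Y : List Bool) (pos : ℕ) (hX : pos + p ≤ X.length)
    (hY : pos + p + q ≤ Y.length) : (alt1 p q X Y pos).length = p + q := by
  simp only [alt1, List.length_append, List.length_take, List.length_drop]; omega

theorem cat_succ (n : ℕ) (f : ℕ → List Bool) : cat (n + 1) f = cat n f ++ f n := by
  simp [cat, List.range_succ]

theorem cat_zero (f : ℕ → List Bool) : cat 0 f = [] := rfl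

theorem cat_congr {n : ℕ} {f g : ℕ → List Bool} (h : ∀ k < n, f k = g k) : cat n f = cat n g := by
  induction n with
  | zero => rfl
  | succ n ih => rw [cat_succ, cat_succ, ih fun k hk => h k (by omega), h n (by omega)]

theorem cat_add (m n : ℕ) (f : ℕ → List Bool) :
    cat (m + n) f = cat m f ++ cat n (fun k => f (m + k)) := by
  induction n with
  | zero => simp [cat_zero]
  | succ n ih => rw [← Nat.add_assoc, cat_succ, ih, cat_succ, List.append_assoc]

theorem cat_mul (m n : ℕ) (f : ℕ → List Bool) :
    cat (m * n) f = cat m (fun i => cat n (fun j => f (i * n + j))) := by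
  induction m with
  | zero => simp [cat_zero]
  | succ m ih => rw [Nat.succ_mul, cat_add, ih, cat_succ]

/-- repeat `selBlk` while `X` is nonempty -/
theorem selLoop_runs (s : SS) (A B : List Bool) (hX : s.X = A) (hY : s.Y = B) (n d : ℕ)
    (hd : (s.J.length + s.I.length) * s.W.length = d) (hd0 : 0 < d) (hA : A.length = n * d)
    (hW' : s.W' = []) (hJ' : s.J' = []) (hI' : s.I' = []) :
    Runs (.whileNE .X selBlk) s.st { s with
      X := [], Y := B.drop (n * d),
      O := (cat n fun k => alt1 (s.J.length * s.W.length) (s.I.length * s.W.length) A B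
        (k * d)).reverse ++ s.O }.st
      (n * ((s.J.length + s.I.length) * (s.W.length * 5 + 6) + 5) + 1) := by
  subst hX hY
  have h := Runs.loop_family (t := fun t : SR → Option Bool => (t .X).isSome) (body := selBlk)
    (fun k => { s with
      X := s.X.drop (k * d), Y := s.Y.drop (k * d),
      O := (cat k fun k => alt1 (s.J.length * s.W.length) (s.I.length * s.W.length) s.X s.Y
        (k * d)).reverse ++ s.O }.st) n
    (fun _ => (s.J.length + s.I.length) * (s.W.length * 5 + 6) + 4)
    (by
      intro i hi
      have : i * d < s.X.length := by rw [hA]; exact Nat.mul_lt_mul_of_pos_right hi hd0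
      show (s.X.drop (i * d)).head?.isSome = true
      rw [List.drop_eq_getElem_cons this]; rfl)
    (by
      show (s.X.drop (n * d)).head?.isSome = false
      rw [← hA, List.drop_length]; rfl)
    (by
      intro i hi
      refine (selBlk_runs _ s.X s.Y (i * d) rfl rfl (by exact hW') (by exact hJ')
        (by exact hI')).conv ?_ le_rfl
      simp only [hd, cat_succ, List.reverse_append, List.append_assoc, Nat.succ_mul])
  simp only [Nat.zero_mul, List.drop_zero, cat_zero, List.reverse_nil, List.nil_append] at h
  refine (h.conv ?_ ?_)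
  · rw [← hA, List.drop_length]
  · simp only [Finset.sum_const, Finset.card_range, smul_eq_mul]; exact le_rfl

theorem flip_OX (s : SS) : Runs (.flip .O .X) s.st
    { s with O := [], X := s.O.reverse ++ s.X }.st (2 * s.O.length + 1) :=
  (Runs.flip (by decide) _).conv (by rw [upd_O, upd_X]; rfl) le_rfl

theorem push_J (s : SS) : Runs (.push .J false) s.st { s with J := false :: s.J }.st 1 :=
  (Runs.push _ _ _).conv (by rw [upd_J]; rfl) le_rfl

theorem push_I (s : SS) : Runs (.push .I false) s.st { s with I := false :: s.I }.st 1 :=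
  (Runs.push _ _ _).conv (by rw [upd_I]; rfl) le_rfl

theorem pop_J (s : SS) : Runs (.pop .J) s.st { s with J := s.J.tail }.st 1 :=
  (Runs.pop _ _).conv (by rw [upd_J]; rfl) le_rfl

theorem pop_I (s : SS) : Runs (.pop .I) s.st { s with I := s.I.tail }.st 1 :=
  (Runs.pop _ _).conv (by rw [upd_I]; rfl) le_rfl

theorem length_rotR (r : ℕ) (X : List Bool) : (rotR r X).length = X.length := by
  simp only [rotR, List.length_append, List.length_drop, List.length_take]; omega

theorem bitop_eq (n t q : ℕ) (hn : n = 2 ^ (t + 1) * q) (X : List Bool) :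
    cat (n * q) (fun k => alt1 (2 ^ t) (2 ^ t) X (rotR (2 ^ t * n) X) (k * 2 ^ (t + 1))) =
      bitop n t X := by
  have hq : n / 2 ^ (t + 1) = q := by
    rw [hn]; exact Nat.mul_div_cancel_left _ (by positivity)
  rw [bitop, hq, cat_mul]
  refine cat_congr fun i _ => cat_congr fun j _ => ?_
  congr 1
  rw [hn]; ring

theorem length_cat_const {n c : ℕ} {f : ℕ → List Bool} (h : ∀ k < n, (f k).length = c) :
    (cat n f).length = n * c := by
  induction n with
  | zero => simp [cat_zero]
  | succ n ih =>
    rw [cat_succ, List.length_append, ih fun k hk => h k (by omega), h n (by omega)]; ring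

theorem length_bitop (n t q : ℕ) (hn : n = 2 ^ (t + 1) * q) (X : List Bool)
    (hX : X.length = n * n) : (bitop n t X).length = n * n := by
  have hN : n * n = (n * q) * 2 ^ (t + 1) := by rw [hn]; ring
  rw [← bitop_eq n t q hn, hN]
  refine length_cat_const fun k hk => ?_
  have h1 : (k + 1) * 2 ^ (t + 1) ≤ n * n := by rw [hN]; exact Nat.mul_le_mul_right _ hk
  have h2 : (k + 1) * 2 ^ (t + 1) = k * 2 ^ (t + 1) + 2 ^ t + 2 ^ t := by rw [pow_succ]; ring
  have h3 : 0 < 2 ^ t := by positivity
  rw [length_alt1 _ _ _ _ _ (by rw [hX]; omega) (by rw [length_rotR, hX]; omega), pow_succ]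
  ring

/-- the bit operation: rotate, alternate `|W|` bits of `X` and of the rotated copy -/
def bitP : Prog SR Bool :=
  .seq rotate (.seq (.push .J false) (.seq (.push .I false) (.seq (.whileNE .X selBlk)
    (.seq (.pop .J) (.seq (.pop .I) (.flip .O .X))))))

theorem bitP_runs (s : SS) (n t : ℕ) (hn : 2 ^ (t + 1) ∣ n) (hX : s.X.length = n * n)
    (hW : s.W.length = 2 ^ t) (hM : s.M.length = 2 ^ t * n)
    (hY : s.Y = []) (hO : s.O = []) (hT : s.T = []) (hU : s.U = []) (hM' : s.M' = [])
    (hW' : s.W' = []) (hJ : s.J = []) (hJ' : s.J' = []) (hI : s.I = []) (hI' : s.I' = []) :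
    Runs bitP s.st { s with X := bitop n t s.X }.st (40 * s.X.length + 40) := by
  obtain ⟨X, Y, O, T, U, M, M', W, W', J, J', I, I', K, K', N, N'⟩ := s
  dsimp only at hX hW hM hY hO hT hU hM' hW' hJ hJ' hI hI'
  subst hY hO hT hU hM' hW' hJ hJ' hI hI'
  obtain ⟨q, rfl⟩ := hn
  set n := 2 ^ (t + 1) * q with hn
  have hq : n / 2 ^ (t + 1) = q := by
    rw [hn]; exact Nat.mul_div_cancel_left _ (by positivity)
  have hN : n * n = (n * q) * 2 ^ (t + 1) := by rw [hn]; ring
  have h1 := rotate_runs ⟨X, [], [], [], [], M, [], W, [], [], [], [], [], K, K', N, N'⟩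
    rfl rfl rfl rfl
  have h4 := selLoop_runs ⟨X, rotR M.length X, [], [], [], M, [], W, [], [false], [], [false], [],
      K, K', N, N'⟩ X (rotR M.length X) rfl rfl
    (n * q) (2 ^ (t + 1)) (by
      show (1 + 1) * W.length = _
      rw [hW, pow_succ]; ring) (by positivity) (by rw [hX, hN]) rfl rfl rfl
  have h := h1.seq ((push_J _).seq ((push_I _).seq (h4.seq
    ((pop_J _).seq ((pop_I _).seq (flip_OX _))))))
  refine h.conv ?_ ?_
  · simp only [List.tail_cons, List.append_nil, List.reverse_reverse, List.length_singleton,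
      Nat.one_mul]
    rw [← hN, ← hX, ← length_rotR M.length X, List.drop_length]
    congr 2
    rw [hW, hM, bitop_eq n t q hn]
  · clear h h1 h4
    simp only [List.length_reverse, List.append_nil, List.length_singleton, Nat.one_mul]
    rw [hM, hW, bitop_eq n t q hn, length_bitop n t q hn X hX, hX]
    have hp : 1 ≤ 2 ^ t := Nat.one_le_two_pow
    have e1 : n * n = 2 * (n * q * 2 ^ t) := by rw [hN, pow_succ]; ring
    have e2 : n * q ≤ n * q * 2 ^ t := Nat.le_mul_of_pos_right _ (by omega)
    have e3 : 2 ^ t * n ≤ n * n := by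
      rcases Nat.eq_zero_or_pos q with h0 | h0
      · have : n = 0 := by rw [hn, h0, Nat.mul_zero]
        rw [this]; simp
      · refine Nat.mul_le_mul_right _ ?_
        calc 2 ^ t ≤ 2 ^ (t + 1) := Nat.pow_le_pow_right (by norm_num) (by omega)
          _ ≤ 2 ^ (t + 1) * q := Nat.le_mul_of_pos_right _ h0
    have e4 : n * q * ((1 + 1) * (2 ^ t * 5 + 6) + 5) = 10 * (n * q * 2 ^ t) + 17 * (n * q) := by
      ring
    rw [e4]
    omega

/-! ### The carry fix -/

/-- `|N|` blocks in a row of the fix pass -/
def fixRow : Prog SR Bool := .forR .N .N' selBlk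

theorem fixRow_runs (s : SS) (A B : List Bool) (pos d p q : ℕ)
    (hX : s.X = A.drop pos) (hY : s.Y = B.drop pos) (hJ : s.J.length * s.W.length = p)
    (hI : s.I.length * s.W.length = q) (hd : p + q = d)
    (hW' : s.W' = []) (hJ' : s.J' = []) (hI' : s.I' = []) (hN' : s.N' = []) :
    Runs fixRow s.st { s with
      X := A.drop (pos + s.N.length * d), Y := B.drop (pos + s.N.length * d),
      O := (cat s.N.length fun k => alt1 p q A B (pos + k * d)).reverse ++ s.O }.st
      (s.N.length * ((s.J.length + s.I.length) * (s.W.length * 5 + 6) + 8) + 2) := by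
  have h := forR_fam (p := selBlk) (r := SR.N) (r' := SR.N') (by decide) s.N
    (fun k => { s with
      X := A.drop (pos + k * d), Y := B.drop (pos + k * d),
      O := (cat k fun k => alt1 p q A B (pos + k * d)).reverse ++ s.O }.st)
    ((s.J.length + s.I.length) * (s.W.length * 5 + 6) + 4)
    (fun _ _ => rfl) (fun _ _ => hN') (by
      intro i hi u v
      rw [upd_N, upd_Np, upd_N, upd_Np]
      refine (selBlk_runs _ A B (pos + i * d) rfl rfl (by exact hW') (by exact hJ')
        (by exact hI')).conv ?_ le_rfl
      simp only [hJ, hI, cat_succ, List.reverse_append, List.append_assoc, Nat.succ_mul,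
        Nat.add_assoc, Nat.add_mul, hd])
  simp only [Nat.zero_mul, Nat.add_zero, cat_zero, List.reverse_nil, List.nil_append, ← hX,
    ← hY] at h
  exact h

theorem mv_IJ (s : SS) (a b : ℕ) (hI : s.I = zer a) (hJ : s.J = zer b) :
    Runs (.mv .I .J) s.st { s with I := zer (a - 1), J := zer (b + min a 1) }.st 1 := by
  rcases a with _ | a
  · refine (Runs.act _ _).conv ?_ le_rfl
    have h : s.st.tops .I = none := by show s.I.head? = none; rw [hI]; rfl
    rw [h]
    obtain ⟨X, Y, O, T, U, M, M', W, W', J, J', I, I', K, K', N, N'⟩ := s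
    dsimp only at hI hJ
    subst hI hJ
    rfl
  · refine (Runs.mv_cons (by decide) (a := false) (l := zer a) (by
      show s.I = _
      rw [hI]; rfl)).conv ?_ le_rfl
    rw [upd_I, upd_J]
    congr 2
    show false :: s.J = _
    rw [hJ]
    show _ = List.replicate _ false
    rw [show b + min (a + 1) 1 = b + 1 by omega, List.replicate_succ]; rfl

theorem flip_JI (s : SS) : Runs (.flip .J .I) s.st
    { s with J := [], I := s.J.reverse ++ s.I }.st (2 * s.J.length + 1) :=
  (Runs.flip (by decide) _).conv (by rw [upd_J, upd_I]; rfl) le_rfl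

theorem copy_KI (s : SS) (hK' : s.K' = []) : Runs (.copy .K .K' .I) s.st
    { s with I := s.K ++ s.I }.st (4 * s.K.length + 2) :=
  (Runs.copy (s := s.st) (r := SR.K) (q := SR.K') (dst := SR.I) (by decide) (by decide)
    (by decide) hK').conv (by rw [upd_I]; rfl) le_rfl

theorem clear_I (s : SS) : Runs (.clear .I) s.st { s with I := [] }.st (2 * s.I.length + 1) :=
  (Runs.clear _ _).conv (by rw [upd_I]) le_rfl

/-- one group of the fix pass -/
def fixGroup : Prog SR Bool :=
  .seq (.forR .K .K' (.seq fixRow (.mv .I .J))) (.seq (.flip .J .I) (.mv .I .J))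

theorem fixGroup_runs (s : SS) (A B : List Bool) (pos k w nn : ℕ)
    (hX : s.X = A.drop pos) (hY : s.Y = B.drop pos) (hJ : s.J = zer 1) (hI : s.I = zer (k - 1))
    (hk : 1 ≤ k) (hW : s.W.length = w) (hK : s.K.length = k) (hN : s.N.length = nn)
    (hW' : s.W' = []) (hJ' : s.J' = []) (hI' : s.I' = []) (hN' : s.N' = []) (hK' : s.K' = []) :
    Runs fixGroup s.st { s with
      X := A.drop (pos + k * (nn * (k * w))), Y := B.drop (pos + k * (nn * (k * w))),
      O := (cat k fun j => cat nn fun i => alt1 ((j + 1) * w) ((k - 1 - j) * w) A B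
        (pos + j * (nn * (k * w)) + i * (k * w))).reverse ++ s.O }.st
      (k * (nn * (k * (w * 5 + 6) + 8) + 7) + 2 * k + 4) := by
  have h := forR_fam (p := .seq fixRow (.mv .I .J)) (r := SR.K) (r' := SR.K') (by decide) s.K
    (fun j => { s with
      X := A.drop (pos + j * (nn * (k * w))), Y := B.drop (pos + j * (nn * (k * w))),
      J := zer (min (j + 1) k), I := zer (k - 1 - j),
      O := (cat j fun j => cat nn fun i => alt1 ((j + 1) * w) ((k - 1 - j) * w) A B
        (pos + j * (nn * (k * w)) + i * (k * w))).reverse ++ s.O }.st)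
    (nn * (k * (w * 5 + 6) + 8) + 2 + 1)
    (fun _ _ => rfl) (fun _ _ => hK') (by
      intro j hj u v
      rw [hK] at hj
      rw [upd_K, upd_Kp, upd_K, upd_Kp]
      have h1 := fixRow_runs { s with
        X := A.drop (pos + j * (nn * (k * w))), Y := B.drop (pos + j * (nn * (k * w))),
        J := zer (min (j + 1) k), I := zer (k - 1 - j),
        O := (cat j fun j => cat nn fun i => alt1 ((j + 1) * w) ((k - 1 - j) * w) A B
          (pos + j * (nn * (k * w)) + i * (k * w))).reverse ++ s.O, K := u, K' := v }
        A B (pos + j * (nn * (k * w))) (k * w) ((j + 1) * w) ((k - 1 - j) * w) rfl rfl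
        (by
          show (List.replicate _ _).length * s.W.length = _
          rw [List.length_replicate, hW, Nat.min_eq_left (by omega)])
        (by
          show (List.replicate _ _).length * s.W.length = _
          rw [List.length_replicate, hW])
        (by rw [← Nat.add_mul]; congr 1; omega) hW' hJ' hI' hN'
      refine (h1.seq (mv_IJ _ (k - 1 - j) (min (j + 1) k) rfl rfl)).conv ?_ ?_
      · simp only [hN, cat_succ, List.reverse_append, List.append_assoc, Nat.succ_mul,
          Nat.add_assoc]
        rw [show k - 1 - j - 1 = k - 1 - (j + 1) by omega,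
          show min (j + 1) k + min (k - 1 - j) 1 = min (j + (1 + 1)) k by omega]
      · simp only [hN, hW]
        rw [show (zer (min (j + 1) k)).length + (zer (k - 1 - j)).length = k by
          show (List.replicate _ _).length + (List.replicate _ _).length = _
          rw [List.length_replicate, List.length_replicate]; omega])
  simp only [Nat.zero_mul, Nat.add_zero, cat_zero, List.reverse_nil, List.nil_append, ← hX,
    ← hY, hK, Nat.zero_add, Nat.sub_zero, Nat.min_eq_left hk, ← hJ, ← hI] at h
  have h2 := h.seq ((flip_JI _).seq (mv_IJ _ k 0 (by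
    show (zer (min (k + 1) k)).reverse ++ zer (k - 1 - k) = zer k
    rw [Nat.min_eq_right (by omega), show k - 1 - k = 0 by omega]
    simp [zer]) rfl))
  refine h2.conv ?_ ?_
  · simp only [hJ, hI, Nat.min_eq_right hk, Nat.zero_add]
  · simp only []
    rw [show (zer (min (k + 1) k)).length = k by simp [zer]]
    ring_nf; omega

theorem pos_iter (pos g a : ℕ) : pos + g * a + a = pos + (g + 1) * a := by ring

/-- the carry fix: rotate, then per group `fixGroup` -/
def fixP : Prog SR Bool :=
  .seq rotate (.seq (.copy .K .K' .I) (.seq (.mv .I .J) (.seq (.whileNE .X fixGroup)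
    (.seq (.clear .I) (.seq (.pop .J) (.flip .O .X))))))

theorem fixLoop_runs (s : SS) (A B : List Bool) (G k w nn : ℕ)
    (hX : s.X = A) (hY : s.Y = B) (hJ : s.J = zer 1) (hI : s.I = zer (k - 1))
    (hk : 1 ≤ k) (hw : 1 ≤ w) (hnn : 1 ≤ nn) (hA : A.length = G * (k * (nn * (k * w))))
    (hW : s.W.length = w) (hK : s.K.length = k) (hN : s.N.length = nn)
    (hW' : s.W' = []) (hJ' : s.J' = []) (hI' : s.I' = []) (hN' : s.N' = []) (hK' : s.K' = []) :
    Runs (.whileNE .X fixGroup) s.st { s with
      X := [], Y := B.drop (G * (k * (nn * (k * w)))),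
      O := (cat G fun g => cat k fun j => cat nn fun i =>
        alt1 ((j + 1) * w) ((k - 1 - j) * w) A B
        (g * (k * (nn * (k * w))) + j * (nn * (k * w)) + i * (k * w))).reverse ++ s.O }.st
      (G * (k * (nn * (k * (w * 5 + 6) + 8) + 7) + 2 * k + 5) + 1) := by
  subst hX hY
  have hpos : 0 < k * (nn * (k * w)) := by positivity
  have h := Runs.loop_family (t := fun t : SR → Option Bool => (t .X).isSome) (body := fixGroup)
    (fun g => { s with
      X := s.X.drop (g * (k * (nn * (k * w)))), Y := s.Y.drop (g * (k * (nn * (k * w)))),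
      O := (cat g fun g => cat k fun j => cat nn fun i =>
        alt1 ((j + 1) * w) ((k - 1 - j) * w) s.X s.Y
        (g * (k * (nn * (k * w))) + j * (nn * (k * w)) + i * (k * w))).reverse ++ s.O }.st) G
    (fun _ => k * (nn * (k * (w * 5 + 6) + 8) + 7) + 2 * k + 4)
    (by
      intro i hi
      have : i * (k * (nn * (k * w))) < s.X.length := by
        rw [hA]; exact Nat.mul_lt_mul_of_pos_right hi hpos
      show (s.X.drop (i * (k * (nn * (k * w))))).head?.isSome = true
      rw [List.drop_eq_getElem_cons this]; rfl)
    (by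
      show (s.X.drop (G * (k * (nn * (k * w))))).head?.isSome = false
      rw [← hA, List.drop_length]; rfl)
    (by
      intro g hg
      refine (fixGroup_runs _ s.X s.Y (g * (k * (nn * (k * w)))) k w nn rfl rfl (by exact hJ)
        (by exact hI) hk (by exact hW) (by exact hK) (by exact hN) (by exact hW')
        (by exact hJ') (by exact hI') (by exact hN') (by exact hK')).conv ?_ le_rfl
      simp only [cat_succ, List.reverse_append, List.append_assoc, Nat.succ_mul])
  simp only [Nat.zero_mul, List.drop_zero, cat_zero, List.reverse_nil, List.nil_append] at h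
  refine (h.conv ?_ ?_)
  · rw [← hA, List.drop_length]
  · simp only [Finset.sum_const, Finset.card_range, smul_eq_mul]; exact le_rfl

theorem length_alt1_le (p q : ℕ) (X Y : List Bool) (pos : ℕ) :
    (alt1 p q X Y pos).length ≤ p + q := by
  simp only [alt1, List.length_append, List.length_take]; omega

theorem length_cat_le {n c : ℕ} {f : ℕ → List Bool} (h : ∀ k < n, (f k).length ≤ c) :
    (cat n f).length ≤ n * c := by
  induction n with
  | zero => simp [cat_zero]
  | succ n ih =>
    rw [cat_succ, List.length_append, Nat.succ_mul]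
    exact Nat.add_le_add (ih fun k hk => h k (by omega)) (h n (by omega))

theorem fix_eq (n b Gr nn : ℕ) (hb : 1 ≤ b) (hn : n = nn * (2 * b)) (X : List Bool) :
    (cat Gr fun g => cat (2 * b) fun j => cat nn fun i =>
        alt1 ((j + 1) * b) ((2 * b - 1 - j) * b) X (rotR (2 * b * b * n) X)
        (g * (2 * b * (nn * (2 * b * b))) + j * (nn * (2 * b * b)) + i * (2 * b * b))) =
      E.fix n b Gr X := by
  have hq : n / (2 * b) = nn := by rw [hn]; exact Nat.mul_div_cancel _ (by omega)
  rw [E.fix, hq]
  refine cat_congr fun g _ => cat_congr fun j _ => cat_congr fun i _ => ?_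
  congr 1
  rw [hn]; ring

theorem length_fix_le (n b Gr nn : ℕ) (hb : 1 ≤ b) (hn : n = nn * (2 * b)) (X : List Bool) :
    (E.fix n b Gr X).length ≤ Gr * (2 * b * (n * b)) := by
  rw [← fix_eq n b Gr nn hb hn X]
  refine length_cat_le fun g _ => length_cat_le fun j hj => ?_
  rw [hn, show nn * (2 * b) * b = nn * (2 * b * b) by ring]
  refine length_cat_le fun i _ => (length_alt1_le _ _ _ _ _).trans (le_of_eq ?_)
  rw [← Nat.add_mul]; congr 1; omega

theorem fixP_runs (s : SS) (n b Gr : ℕ) (hb : 1 ≤ b) (hn0 : 1 ≤ n) (hG : 1 ≤ Gr)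
    (hn : 2 * b ∣ n) (hX : s.X.length = Gr * (2 * b * (n * b)))
    (hW : s.W.length = b) (hM : s.M.length = 2 * b * b * n) (hK : s.K = zer (2 * b))
    (hN : s.N.length = n / (2 * b))
    (hY : s.Y = []) (hO : s.O = []) (hT : s.T = []) (hU : s.U = []) (hM' : s.M' = [])
    (hW' : s.W' = []) (hJ : s.J = []) (hJ' : s.J' = []) (hI : s.I = []) (hI' : s.I' = [])
    (hK' : s.K' = []) (hN' : s.N' = []) :
    Runs fixP s.st { s with X := E.fix n b Gr s.X }.st (100 * s.X.length + 100) := by
  obtain ⟨X, Y, O, T, U, M, M', W, W', J, J', I, I', K, K', N, N'⟩ := s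
  dsimp only at hX hW hM hK hN hY hO hT hU hM' hW' hJ hJ' hI hI' hK' hN'
  subst hY hO hT hU hM' hW' hJ hJ' hI hI' hK' hN'
  obtain ⟨nn, hnn⟩ := hn
  rw [Nat.mul_comm] at hnn
  have hq : n / (2 * b) = nn := by rw [hnn]; exact Nat.mul_div_cancel _ (by omega)
  have hnn1 : 1 ≤ nn := by
    rcases Nat.eq_zero_or_pos nn with h0 | h0
    · rw [h0] at hnn; omega
    · exact h0
  rw [hq] at hN
  have hgrp : 2 * b * (n * b) = 2 * b * (nn * (2 * b * b)) := by rw [hnn]; ring
  rw [hgrp] at hX
  have h1 := rotate_runs ⟨X, [], [], [], [], M, [], W, [], [], [], [], [], K, [], N, []⟩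
    rfl rfl rfl rfl
  have h4 := fixLoop_runs ⟨X, rotR M.length X, [], [], [], M, [], W, [], zer 1, [],
      zer (2 * b - 1), [], K, [], N, []⟩ X (rotR M.length X) Gr (2 * b) b nn rfl rfl rfl rfl
    (by omega) hb hnn1 hX hW (by rw [hK]; simp [zer]) hN rfl rfl rfl rfl rfl
  have h2 := copy_KI ⟨X, rotR M.length X, [], [], [], M, [], W, [], [], [], [], [], K, [], N, []⟩
    rfl
  have h3 := mv_IJ ⟨X, rotR M.length X, [], [], [], M, [], W, [], [], [], K ++ [], [], K, [],
    N, []⟩ (2 * b) 0 (by rw [List.append_nil]; exact hK) rfl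
  rw [show min (2 * b) 1 = 1 by omega] at h3
  have h := h1.seq (h2.seq (h3.seq (h4.seq
    ((clear_I _).seq ((pop_J _).seq (flip_OX _))))))
  refine h.conv ?_ ?_
  · rw [hM, fix_eq n b Gr nn hb hnn]
    simp only [List.append_nil, List.reverse_reverse]
    rw [← hX, ← length_rotR (2 * b * b * n) X, List.drop_length]
    rfl
  · clear h h1 h2 h3 h4
    rw [hM, fix_eq n b Gr nn hb hnn, hK]
    simp only [List.append_nil, List.length_reverse, List.length_replicate, zer]
    have hl := length_fix_le n b Gr nn hb hnn X
    rw [hgrp] at hl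
    rw [hX]
    set G := 2 * b * (nn * (2 * b * b)) with hGdef
    have hr : 2 * b * b * n = G := by rw [hGdef, hnn]; ring
    rw [hr]
    have c1 : b ^ 2 ≤ b ^ 3 := Nat.pow_le_pow_right hb (by norm_num)
    have c2 : b ≤ b ^ 3 := Nat.le_self_pow (by norm_num) b
    have d1 : nn * b ^ 2 ≤ nn * b ^ 3 := Nat.mul_le_mul_left _ c1
    have d2 : nn * b ≤ nn * b ^ 3 := Nat.mul_le_mul_left _ c2
    have d3 : b ≤ nn * b := Nat.le_mul_of_pos_left _ hnn1
    have hG4 : G = 4 * (nn * b ^ 3) := by rw [hGdef]; ring
    have e1 : 2 * b * (nn * (2 * b * (b * 5 + 6) + 8) + 7) + 2 * (2 * b) + 5 ≤ 40 * G := by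
      have : 2 * b * (nn * (2 * b * (b * 5 + 6) + 8) + 7) + 2 * (2 * b) + 5 =
        20 * (nn * b ^ 3) + 24 * (nn * b ^ 2) + 16 * (nn * b) + 18 * b + 5 := by ring
      rw [this, hG4]; omega
    have e2 : Gr * (2 * b * (nn * (2 * b * (b * 5 + 6) + 8) + 7) + 2 * (2 * b) + 5) ≤
        Gr * (40 * G) := Nat.mul_le_mul_left _ e1
    have e3 : G ≤ Gr * G := Nat.le_mul_of_pos_left _ hG
    have e4 : 2 * b ≤ G := by rw [hG4]; omega
    have e5 : Gr * (40 * G) = 40 * (Gr * G) := by ring
    omega

end Vale.Agent.P338.H666
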