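import Vale.Agent.P338.H666.Loop
import Vale.Agent.P338.H666.Rename
import Vale.Agent.P338.H930.ParamD

/-!
# Search of a prime by a unary sieve

Registers: ruler `S` (`s` ticks) with scratch `S'`, cyclic counter `C, D`, flags `A` (and `B`),
output `Z`.  The window is `s+1, ..., 2s`; the flag of `q` is `true` iff some `r` with
`2 ≤ r ≤ s` divides `q`.
-/

namespace Vale.Agent.P338.H666

open Vale.Agent.P338

/-- Registers of the sieve. -/
inductive VR : Type
  | S | S' | C | D | A | B | Z
  deriving DecidableEq

/-- Contents of the registers. -/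
structure VS where
  S : List Bool := []
  S' : List Bool := []
  C : List Bool := []
  D : List Bool := []
  A : List Bool := []
  B : List Bool := []
  Z : List Bool := []

/-- The store of a structure. -/
def VS.st (s : VS) : Store VR Bool
  | .S => s.S
  | .S' => s.S'
  | .C => s.C
  | .D => s.D
  | .A => s.A
  | .B => s.B
  | .Z => s.Z

section upd

variable (s : VS) (l : List Bool)

theorem VS.upd_S : Function.update s.st VR.S l = { s with S := l }.st := by
  funext r; cases r <;> rfl
theorem VS.upd_Sp : Function.update s.st VR.S' l = { s with S' := l }.st := by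
  funext r; cases r <;> rfl
theorem VS.upd_C : Function.update s.st VR.C l = { s with C := l }.st := by
  funext r; cases r <;> rfl
theorem VS.upd_D : Function.update s.st VR.D l = { s with D := l }.st := by
  funext r; cases r <;> rfl
theorem VS.upd_A : Function.update s.st VR.A l = { s with A := l }.st := by
  funext r; cases r <;> rfl
theorem VS.upd_B : Function.update s.st VR.B l = { s with B := l }.st := by
  funext r; cases r <;> rfl
theorem VS.upd_Z : Function.update s.st VR.Z l = { s with Z := l }.st := by
  funext r; cases r <;> rfl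

end upd

/-! ### List level -/

/-- one pass: the flags of the numbers `m+1, m+2, ...`; multiples of `r` are marked -/
def mark (r : ℕ) : ℕ → List Bool → List Bool
  | _, [] => []
  | m, a :: l => (a || decide (r ∣ m + 1)) :: mark r (m + 1) l

/-- the passes for `r = k+1, k, ..., 2` -/
def sv : ℕ → List Bool → List Bool
  | 0, l => l
  | k + 1, l => sv k (mark (k + 2) 0 l)

theorem length_mark (r m : ℕ) (l : List Bool) : (mark r m l).length = l.length := by
  induction l generalizing m with
  | nil => rfl
  | cons a l ih => simp [mark, ih]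

theorem length_sv (k : ℕ) (l : List Bool) : (sv k l).length = l.length := by
  induction k generalizing l with
  | zero => rfl
  | succ k ih => rw [sv, ih, length_mark]

theorem getD_mark (r : ℕ) (l : List Bool) (m i : ℕ) (hi : i < l.length) :
    (mark r m l).getD i false = (l.getD i false || decide (r ∣ m + i + 1)) := by
  induction l generalizing m i with
  | nil => simp at hi
  | cons a l ih =>
    cases i with
    | zero => simp [mark]
    | succ i =>
      have h1 : i < l.length := by simpa using hi
      have := ih (m + 1) i h1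
      simp only [mark, List.getD_cons_succ]
      rw [this]
      congr 3
      omega

theorem getD_sv (k : ℕ) (l : List Bool) (i : ℕ) (hi : i < l.length) :
    (sv k l).getD i false = true ↔
      (l.getD i false = true ∨ ∃ r, 2 ≤ r ∧ r ≤ k + 1 ∧ r ∣ i + 1) := by
  induction k generalizing l with
  | zero =>
    rw [sv]
    constructor
    · exact Or.inl
    · rintro (h | ⟨r, h1, h2, _⟩)
      · exact h
      · omega
  | succ k ih =>
    rw [sv, ih _ (by rw [length_mark]; exact hi), getD_mark _ _ _ _ hi, Bool.or_eq_true,
      decide_eq_true_eq, Nat.zero_add]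
    constructor
    · rintro ((h | h) | ⟨r, h1, h2, h3⟩)
      · exact Or.inl h
      · exact Or.inr ⟨k + 2, by omega, by omega, h⟩
      · exact Or.inr ⟨r, h1, by omega, h3⟩
    · rintro (h | ⟨r, h1, h2, h3⟩)
      · exact Or.inl (Or.inl h)
      · rcases Nat.lt_or_ge r (k + 2) with h4 | h4
        · exact Or.inr ⟨r, h1, by omega, h3⟩
        · have : r = k + 2 := by omega
          subst this
          exact Or.inl (Or.inr h3)

/-- the least prime larger than `s` -/
noncomputable def np (s : ℕ) : ℕ := Nat.find (D.exists_prime_gt s)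

theorem np_prime (s : ℕ) : (np s).Prime := (Nat.find_spec (D.exists_prime_gt s)).2
theorem lt_np (s : ℕ) : s < np s := (Nat.find_spec (D.exists_prime_gt s)).1
theorem np_min {s q : ℕ} (h1 : s < q) (h2 : q < np s) : ¬ q.Prime := fun h =>
  Nat.find_min (D.exists_prime_gt s) h2 ⟨h1, h⟩

theorem np_le {s : ℕ} (hs : 1 ≤ s) : np s ≤ 2 * s := by
  obtain ⟨q, hq, h1, h2⟩ := Nat.exists_prime_lt_and_le_two_mul s (by omega)
  exact (Nat.find_min' (D.exists_prime_gt s) ⟨h1, hq⟩).trans h2

/-- in the window, the flag says composite -/
theorem flag_iff {s q : ℕ} (hs : 1 ≤ s) (h1 : s < q) (h2 : q ≤ 2 * s) :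
    (sv (s - 1) (zer (2 * s))).getD (q - 1) false = true ↔ ¬ q.Prime := by
  rw [getD_sv _ _ _ (by simp [zer]; omega)]
  have h0 : (zer (2 * s)).getD (q - 1) false = false := by
    simp [zer]
  rw [h0, show s - 1 + 1 = s by omega, show q - 1 + 1 = q by omega]
  constructor
  · rintro (h | ⟨r, h3, h4, h5⟩) hp
    · simp at h
    · rcases (Nat.dvd_prime hp).1 h5 with h6 | h6 <;> omega
  · intro hp
    right
    obtain ⟨c, hc⟩ := Nat.minFac_dvd q
    have h5 : q.minFac ≠ q := fun h => hp (h ▸ Nat.minFac_prime (by omega))
    have h6 := (Nat.minFac_prime (n := q) (by omega)).two_le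
    have h7 : 2 ≤ c := by
      rcases c with _ | _ | c
      · omega
      · omega
      · omega
    refine ⟨q.minFac, h6, ?_, Nat.minFac_dvd q⟩
    nlinarith

/-! ### The program -/

/-- move the flag, mark it if the cyclic counter is at its end -/
def stepM : Prog VR Bool := .branch fun t =>
  match t .C with
  | some _ => .seq (.mv .C .D) (.mv .A .B)
  | none => .seq (.flip .D .C) (.seq (.pop .A) (.push .B true))

theorem zer_succ (n : ℕ) : zer (n + 1) = false :: zer n := rfl

theorem zer_reverse (n : ℕ) : (zer n).reverse = zer n := List.reverse_replicate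

theorem zer_append (m n : ℕ) : zer m ++ zer n = zer (m + n) := List.replicate_append_replicate

theorem markLoop_runs (r : ℕ) (hr : 1 ≤ r) (l : List Bool) : ∀ (m : ℕ) (b S S' Z : List Bool),
    Runs (.whileNE .A stepM) (VS.mk S S' (zer (r - 1 - m % r)) (zer (m % r)) l b Z).st
      (VS.mk S S' (zer (r - 1 - (m + l.length) % r)) (zer ((m + l.length) % r)) []
        ((mark r m l).reverse ++ b) Z).st (8 * l.length + 2 * (m % r) + 1) := by
  induction l with
  | nil =>
    intro m b S S' Z
    refine (Runs.whileNE_nil rfl).conv ?_ (by omega)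
    simp [mark]
  | cons a l ih =>
    intro m b S S' Z
    have hlt : m % r < r := Nat.mod_lt _ (by omega)
    have h0 : (VS.mk S S' (zer (r - 1 - m % r)) (zer (m % r)) (a :: l) b Z).st VR.A = a :: l :=
      rfl
    rcases Nat.lt_or_ge (m % r) (r - 1) with h | h
    · have hm : (m + 1) % r = m % r + 1 := by
        rw [Nat.add_mod]
        rw [Nat.mod_eq_of_lt (a := 1) (by omega), Nat.mod_eq_of_lt (by omega)]
      have hnd : ¬ r ∣ m + 1 := by
        rw [Nat.dvd_iff_mod_eq_zero, hm]; omega
      have hc : zer (r - 1 - m % r) = false :: zer (r - 1 - (m + 1) % r) := by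
        rw [hm, ← zer_succ]; congr 1; omega
      have h1 : Runs stepM (VS.mk S S' (zer (r - 1 - m % r)) (zer (m % r)) (a :: l) b Z).st
          (VS.mk S S' (zer (r - 1 - (m + 1) % r)) (zer ((m + 1) % r)) l (a :: b) Z).st 3 := by
        refine Runs.branch ?_
        have ht : (VS.mk S S' (zer (r - 1 - m % r)) (zer (m % r)) (a :: l) b Z).st.tops VR.C
            = some false := by
          show (zer _).head? = _
          rw [hc]; rfl
        rw [ht]
        refine ((Runs.mv_cons (r := VR.C) (q := VR.D) (by decide) (a := false)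
          (l := zer (r - 1 - (m + 1) % r)) (by exact hc)).seq
          (Runs.mv_cons (r := VR.A) (q := VR.B) (by decide) (a := a) (l := l) ?_)).conv ?_ le_rfl
        · rfl
        · rw [VS.upd_C, VS.upd_D, VS.upd_A, VS.upd_B, hm, zer_succ]; rfl
      refine (Runs.whileNE_cons h0 h1 (ih (m + 1) (a :: b) S S' Z)).conv ?_ ?_
      · rw [mark]
        simp only [hnd, decide_false, Bool.or_false, List.reverse_cons, List.append_assoc,
          List.length_cons, List.cons_append, List.nil_append]
        rw [show m + 1 + l.length = m + (l.length + 1) by omega]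
      · rw [hm, List.length_cons]; omega
    · have hm1 : m % r = r - 1 := by omega
      have hd : r ∣ m + 1 := by
        rw [Nat.dvd_iff_mod_eq_zero, Nat.add_mod, hm1]
        rcases Nat.eq_or_lt_of_le hr with h2 | h2
        · rw [← h2]
        · rw [Nat.mod_eq_of_lt (a := 1) h2, show r - 1 + 1 = r by omega, Nat.mod_self]
      have hm : (m + 1) % r = 0 := Nat.mod_eq_zero_of_dvd hd
      have hc : zer (r - 1 - m % r) = [] := by rw [hm1, Nat.sub_self]; rfl
      have h1 : Runs stepM (VS.mk S S' (zer (r - 1 - m % r)) (zer (m % r)) (a :: l) b Z).st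
          (VS.mk S S' (zer (r - 1 - (m + 1) % r)) (zer ((m + 1) % r)) l (true :: b) Z).st
          (2 * (r - 1) + 4) := by
        refine Runs.branch ?_
        have ht : (VS.mk S S' (zer (r - 1 - m % r)) (zer (m % r)) (a :: l) b Z).st.tops VR.C
            = none := by
          show (zer _).head? = _
          rw [hc]; rfl
        rw [ht]
        refine ((Runs.flip (r := VR.D) (q := VR.C) (by decide) _).seq
          ((Runs.pop VR.A _).seq (Runs.push VR.B true _))).conv ?_ ?_
        · rw [VS.upd_D, VS.upd_C, VS.upd_A, VS.upd_B]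
          show (VS.mk S S' ((zer (m % r)).reverse ++ zer (r - 1 - m % r)) [] l (true :: b) Z).st
            = _
          rw [hc, hm, List.append_nil, zer_reverse, hm1, Nat.sub_zero]
          rfl
        · show (2 * (zer (m % r)).length + 1) + (1 + 1) ≤ _
          simp only [zer, List.length_replicate]; omega
      refine (Runs.whileNE_cons h0 h1 (ih (m + 1) (true :: b) S S' Z)).conv ?_ ?_
      · rw [mark]
        simp only [hd, decide_true, Bool.or_true, List.reverse_cons, List.append_assoc,
          List.length_cons, List.cons_append, List.nil_append]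
        rw [show m + 1 + l.length = m + (l.length + 1) by omega]
      · rw [hm, hm1, List.length_cons]; omega

theorem VS.flip_BA (s : VS) : Runs (.flip .B .A) s.st
    { s with B := [], A := s.B.reverse ++ s.A }.st (2 * s.B.length + 1) :=
  (Runs.flip (by decide) _).conv (by rw [VS.upd_B, VS.upd_A]; rfl) le_rfl

theorem VS.flip_DC (s : VS) : Runs (.flip .D .C) s.st
    { s with D := [], C := s.D.reverse ++ s.C }.st (2 * s.D.length + 1) :=
  (Runs.flip (by decide) _).conv (by rw [VS.upd_D, VS.upd_C]; rfl) le_rfl

theorem VS.pop_C (s : VS) : Runs (.pop .C) s.st { s with C := s.C.tail }.st 1 :=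
  (Runs.pop _ _).conv (by rw [VS.upd_C]; rfl) le_rfl

/-- the pass for `r = |C| + 1`, then `r := r - 1` -/
def passV : Prog VR Bool :=
  .seq (.whileNE .A stepM) (.seq (.flip .B .A) (.seq (.flip .D .C) (.pop .C)))

theorem passV_runs (k : ℕ) (l S S' Z : List Bool) :
    Runs passV (VS.mk S S' (zer (k + 1)) [] l [] Z).st
      (VS.mk S S' (zer k) [] (mark (k + 2) 0 l) [] Z).st (10 * l.length + 2 * k + 8) := by
  have h1 := markLoop_runs (k + 2) (by omega) l 0 [] S S' Z
  simp only [Nat.zero_mod, Nat.sub_zero, show k + 2 - 1 = k + 1 by omega, Nat.mul_zero,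
    Nat.add_zero, Nat.zero_add, List.append_nil] at h1
  have h0 : zer 0 = [] := rfl
  rw [h0] at h1
  refine (h1.seq ((VS.flip_BA _).seq ((VS.flip_DC _).seq (VS.pop_C _)))).conv ?_ ?_
  · simp only [List.reverse_reverse, List.append_nil, zer_reverse, zer_append]
    have : l.length % (k + 2) < k + 2 := Nat.mod_lt _ (by omega)
    rw [show l.length % (k + 2) + (k + 1 - l.length % (k + 2)) = k + 1 by omega, zer_succ]
    rfl
  · have : l.length % (k + 2) < k + 2 := Nat.mod_lt _ (by omega)
    simp only [List.length_reverse, length_mark, zer, List.length_replicate]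
    omega

theorem passes_runs (S S' Z : List Bool) : ∀ (k : ℕ) (l : List Bool),
    Runs (.whileNE .C passV) (VS.mk S S' (zer k) [] l [] Z).st
      (VS.mk S S' [] [] (sv k l) [] Z).st (k * (10 * l.length + 2 * k + 9) + 1)
  | 0, l => (Runs.whileNE_nil rfl).weaken (by omega)
  | k + 1, l => by
    have h0 : (VS.mk S S' (zer (k + 1)) [] l [] Z).st VR.C = false :: zer k := rfl
    refine (Runs.whileNE_cons h0 (passV_runs k l S S' Z) (passes_runs S S' Z k _)).conv rfl ?_
    rw [length_mark]
    have e : (k + 1) * (10 * l.length + 2 * (k + 1) + 9) =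
        k * (10 * l.length + 2 * k + 9) + 2 * k + (10 * l.length + 2 * (k + 1) + 9) := by ring
    rw [e]
    omega

/-- push two flags -/
def push2 : Prog VR Bool := .seq (.push .A false) (.push .A false)

/-- `A := zer (2 |S|)` -/
theorem fillA_runs (S C D Z : List Bool) (A : List Bool) :
    Runs (.forR .S .S' push2) (VS.mk S [] C D A [] Z).st
      (VS.mk S [] C D (zer (2 * S.length) ++ A) [] Z).st (S.length * 6 + 2) := by
  have h := forR_fam (p := push2) (r := VR.S) (r' := VR.S') (by decide) S
    (fun k => (VS.mk S [] C D (zer (2 * k) ++ A) [] Z).st) 2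
    (fun _ _ => rfl) (fun _ _ => rfl) (by
      intro i hi u v
      rw [VS.upd_S, VS.upd_Sp, VS.upd_S, VS.upd_Sp]
      refine ((Runs.push VR.A false _).seq (Runs.push VR.A false _)).conv ?_ le_rfl
      rw [VS.upd_A, VS.upd_A, show 2 * (i + 1) = 2 * i + 1 + 1 by ring, zer_succ, zer_succ]
      rfl)
  exact h

/-- pop a flag, push a tick of the output -/
def outT : Prog VR Bool := .seq (.pop .A) (.push .Z false)

theorem outT_runs (S S' C D A B Z : List Bool) :
    Runs outT (VS.mk S S' C D A B Z).st (VS.mk S S' C D A.tail B (false :: Z)).st 2 := by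
  refine ((Runs.pop VR.A _).seq (Runs.push VR.Z false _)).conv ?_ le_rfl
  rw [VS.upd_A, VS.upd_Z]; rfl

theorem outS_runs (S C D A B Z : List Bool) :
    Runs (.forR .S .S' outT) (VS.mk S [] C D A B Z).st
      (VS.mk S [] C D (A.drop S.length) B (zer S.length ++ Z)).st (S.length * 6 + 2) := by
  have h := forR_fam (p := outT) (r := VR.S) (r' := VR.S') (by decide) S
    (fun k => (VS.mk S [] C D (A.drop k) B (zer k ++ Z)).st) 2
    (fun _ _ => rfl) (fun _ _ => rfl) (by
      intro i hi u v
      rw [VS.upd_S, VS.upd_Sp, VS.upd_S, VS.upd_Sp]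
      refine (outT_runs _ _ _ _ _ _ _).conv ?_ le_rfl
      rw [List.tail_drop, zer_succ]; rfl)
  exact h

/-- while the top flag is `true` -/
theorem outW_runs (S C D B : List Bool) : ∀ (j : ℕ) (A Z : List Bool), j < A.length →
    (∀ i < j, A.getD i false = true) → A.getD j false = false →
    Runs (.loop (fun t => t .A == some true) outT) (VS.mk S [] C D A B Z).st
      (VS.mk S [] C D (A.drop j) B (zer j ++ Z)).st (3 * j + 1)
  | 0, A, Z, hj, _, h0 => by
    refine (Runs.loop_stop ?_).conv rfl (by omega)
    show (A.head? == some true) = false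
    rcases A with _ | ⟨a, A⟩
    · rfl
    · simp at h0; simp [h0]
  | j + 1, A, Z, hj, h1, h0 => by
    rcases A with _ | ⟨a, A⟩
    · simp at hj
    · have ha : a = true := by simpa using h1 0 (by omega)
      subst ha
      have h2 := outW_runs S C D B j A (false :: Z) (by simpa using hj)
        (fun i hi => by simpa using h1 (i + 1) (by omega)) (by simpa using h0)
      refine (Runs.loop_step (by rfl) (outT_runs _ _ _ _ _ _ _) h2).conv ?_ (by omega)
      rw [show zer (j + 1) ++ Z = zer j ++ false :: Z by
        rw [← List.singleton_append, ← List.append_assoc]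
        congr 1
        show _ = zer j ++ zer 1
        rw [zer_append]]
      rfl

theorem VS.copy_SC (s : VS) (h : s.S' = []) : Runs (.copy .S .S' .C) s.st
    { s with C := s.S ++ s.C }.st (4 * s.S.length + 2) :=
  (Runs.copy (s := s.st) (r := VR.S) (q := VR.S') (dst := VR.C) (by decide) (by decide)
    (by decide) h).conv (by rw [VS.upd_C]; rfl) le_rfl

theorem VS.clear_A (s : VS) : Runs (.clear .A) s.st { s with A := [] }.st
    (2 * s.A.length + 1) :=
  (Runs.clear _ _).conv (by rw [VS.upd_A]) le_rfl

/-- `Z := zer (p - 1)`, `p` the least prime larger than `|S|` -/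
def sieve : Prog VR Bool :=
  .seq (.forR .S .S' push2) (.seq (.copy .S .S' .C) (.seq (.pop .C)
    (.seq (.whileNE .C passV) (.seq (.forR .S .S' outT)
      (.seq (.loop (fun t => t .A == some true) outT) (.clear .A))))))

theorem sieve_runs (s : ℕ) (hs : 1 ≤ s) :
    Runs sieve (VS.mk (zer s) [] [] [] [] [] []).st
      (VS.mk (zer s) [] [] [] [] [] (zer (np s - 1))).st (22 * (s * s) + 50 * s + 50) := by
  have h1 := fillA_runs (zer s) [] [] [] []
  have h2 := VS.copy_SC (VS.mk (zer s) [] [] [] (zer (2 * (zer s).length) ++ []) [] []) rfl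
  have hl : (zer s).length = s := by simp [zer]
  simp only [hl, List.append_nil] at h1 h2
  have h3 : Runs (.pop .C) (VS.mk (zer s) [] (zer s) [] (zer (2 * s)) [] []).st
      (VS.mk (zer s) [] (zer (s - 1)) [] (zer (2 * s)) [] []).st 1 := by
    refine (VS.pop_C _).conv ?_ le_rfl
    obtain ⟨s, rfl⟩ := Nat.exists_eq_add_of_le' hs
    rfl
  have h4 := passes_runs (zer s) [] [] (s - 1) (zer (2 * s))
  have h5 := outS_runs (zer s) [] [] (sv (s - 1) (zer (2 * s))) [] []
  set A := sv (s - 1) (zer (2 * s)) with hA
  have hAl : A.length = 2 * s := by rw [hA, length_sv]; simp [zer]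
  have hlt := lt_np s
  have hle := np_le hs
  have h6 := outW_runs (zer s) [] [] [] (np s - 1 - s) (A.drop s) (zer s)
    (by rw [List.length_drop, hAl]; omega)
    (by
      intro i hi
      have : (A.drop s).getD i false = A.getD (s + i + 1 - 1) false := by
        simp [List.getD_eq_getElem?_getD, List.getElem?_drop]
      rw [this, flag_iff (q := s + i + 1) hs (by omega) (by omega)]
      exact np_min (s := s) (q := s + i + 1) (by omega) (by omega))
    (by
      have : (A.drop s).getD (np s - 1 - s) false = A.getD (np s - 1) false := by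
        simp only [List.getD_eq_getElem?_getD, List.getElem?_drop]
        rw [show s + (np s - 1 - s) = np s - 1 by omega]
      rw [this]
      by_contra hf
      rw [Bool.not_eq_false, flag_iff (q := np s) hs (by omega) (by omega)] at hf
      exact hf (np_prime s))
  simp only [hl, List.append_nil] at h5
  refine (h1.seq (h2.seq (h3.seq (h4.seq (h5.seq (h6.seq (VS.clear_A _))))))).conv ?_ ?_
  · simp only []
    rw [zer_append, show np s - 1 - s + s = np s - 1 by omega]
  · simp only [List.length_drop, hAl]
    have e1 : (zer (2 * s)).length = 2 * s := by simp [zer]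
    rw [e1]
    obtain ⟨k, rfl⟩ := Nat.exists_eq_add_of_le' hs
    simp only [Nat.add_sub_cancel]
    have e2 : k * (10 * (2 * (k + 1)) + 2 * k + 9) ≤ 22 * ((k + 1) * (k + 1)) := by nlinarith
    omega

end Vale.Agent.P338.H666
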