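import Vale.Agent.P338.H666.Root
import Vale.Agent.P338.H51.RD

/-!
# The searches over the registers of stage 2
-/

namespace Vale.Agent.P338.H666

open Vale.Agent.P338

/-- registers of the sieve: rulers `rs00`, output `rs` -/
def eSv : VR → RD
  | .S => .rs00 | .S' => .t 0 | .C => .t 1 | .D => .t 2 | .A => .t 3 | .B => .t 4 | .Z => .rs

/-- registers of the search of the root -/
def eRt : QR → RD
  | .S => .rs | .S' => .t 0 | .W => .rW | .W' => .t 1 | .X => .nomi | .OM => .nom | .P => .np
  | .ONE => .t 2 | .CNT => .t 3 | .FL => .t 4 | .E => .t 5 | .ACC => .t 6 | .ta => .t 7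
  | .tb => .t 8 | .tp => .t 9 | .tx => .t 10 | .c1 => .t 11 | .c2 => .t 12 | .yr => .t 13
  | .bt => .t 14 | .f => .t 15

theorem eSv_injective : Function.Injective eSv := by
  intro u v h
  cases u <;> cases v <;> first | rfl | (exact absurd h (by decide))

theorem eRt_injective : Function.Injective eRt := by
  intro u v h
  cases u <;> cases v <;> first | rfl | (exact absurd h (by decide))

/-- `rs := p - 1`, `p` the least prime larger than `|rs00|` -/
noncomputable def SIEVE : Prog RD Bool := sieve.ren eSv

/-- `np := p`, `nom := om`, `nomi := om^(-1)` from `rs = p - 1` and `rW` -/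
noncomputable def ROOT : Prog RD Bool := rootP.ren eRt

theorem SIEVE_runs (v : DV) (s : ℕ) (hs : 1 ≤ s) (h1 : v.rs00 = zer s) (h2 : v.rs = []) :
    Runs SIEVE v.st { v with rs := zer (np s - 1) }.st (22 * (s * s) + 50 * s + 50) := by
  refine DV.run eSv_injective (sieve_runs s hs) ?_ ?_ ?_
  · intro l
    cases l <;> first | rfl | exact h1 | exact h2
  · intro l
    cases l <;> first | rfl | exact h1
  · intro r hr
    cases r <;> first | rfl | exact absurd rfl (hr .Z)

theorem ROOT_runs {W p : ℕ} (hp : p.Prime) (hP : 2 * p ≤ 2 ^ W) (v : DV)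
    (h1 : v.rs = zer (p - 1)) (h2 : v.rW = zer W) (h3 : v.np = []) (h4 : v.nom = [])
    (h5 : v.nomi = []) :
    Runs ROOT v.st { v with
      np := lbits W p, nom := lbits W (lroot p), nomi := lbits W (lroot p ^ (p - 2) % p) }.st
      (200 * (p * p * (W * W))) := by
  refine DV.run eRt_injective (rootP_runs hp hP) ?_ ?_ ?_
  · intro l
    cases l <;> first | rfl | exact h1 | exact h2 | exact h3 | exact h4 | exact h5
  · intro l
    cases l <;> first | rfl | exact h1 | exact h2
  · intro r hr
    cases r <;> first | rfl | exact absurd rfl (hr .P) | exact absurd rfl (hr .OM) |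
      exact absurd rfl (hr .X)

/-- the root as a unit, in the form of `H811.fastD_eq_shearHi` and `TABLES_runs` -/
theorem lroot_unit {p : ℕ} (hp : p.Prime) :
    ∃ g : (ZMod p)ˣ, (g : ZMod p) = (lroot p : ZMod p) ∧ orderOf g = p - 1 :=
  D.orderOf_eq_of_test hp (lroot_spec hp).1 (lroot_lt hp) (lroot_test hp)

theorem np_s00 (n0 : ℕ) : np (D.s00 n0) = D.pp n0 := rfl

end Vale.Agent.P338.H666
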