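import Mathlib

/-!
# Naive swap, list level

A block is a sequence of `N = M * 2 ^ r` chunks.  One unshuffle puts the chunks of even index
before the chunks of odd index.  After `r` unshuffles, the chunk of index `q * 2 ^ r + s`
(`q < M`, `s < 2 ^ r`) sits at position `s * M + q`; so a `K₁ × S` matrix of chunks
(`S = 2 ^ r`), stored row by row, becomes its `S × K₁` transpose, stored row by row.
-/

namespace Vale.Agent.P338.H666

variable {α : Type*}

/-- the concatenation of the chunks `g 0, …, g (n-1)` -/
def cat (n : ℕ) (g : ℕ → List α) : List α := (List.range n).flatMap g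

@[simp] theorem cat_zero (g : ℕ → List α) : cat 0 g = [] := by simp [cat]

theorem cat_succ (n : ℕ) (g : ℕ → List α) : cat (n + 1) g = cat n g ++ g n := by
  simp [cat, List.range_succ]

theorem cat_succ' (n : ℕ) (g : ℕ → List α) : cat (n + 1) g = g 0 ++ cat n (fun k => g (k + 1)) := by
  simp only [cat, List.range_succ_eq_map, List.flatMap_cons, List.flatMap_map]

theorem cat_add (m n : ℕ) (g : ℕ → List α) :
    cat (m + n) g = cat m g ++ cat n (fun k => g (m + k)) := by
  induction n with
  | zero => simp
  | succ n ih => rw [← Nat.add_assoc, cat_succ, ih, cat_succ, List.append_assoc]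

theorem cat_congr {n : ℕ} {g h : ℕ → List α} (H : ∀ k < n, g k = h k) : cat n g = cat n h := by
  induction n with
  | zero => simp
  | succ n ih => rw [cat_succ, cat_succ, ih fun k hk => H k (by omega), H n (by omega)]

theorem length_cat (n c : ℕ) (g : ℕ → List α) (H : ∀ k < n, (g k).length = c) :
    (cat n g).length = n * c := by
  induction n with
  | zero => simp
  | succ n ih =>
    rw [cat_succ, List.length_append, ih fun k hk => H k (by omega), H n (by omega)]; ring

theorem cat_mul (m n : ℕ) (g : ℕ → List α) :
    cat (m * n) g = cat m (fun i => cat n (fun j => g (i * n + j))) := by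
  induction m with
  | zero => simp
  | succ m ih => rw [Nat.succ_mul, cat_add, ih, cat_succ]

/-- the index permutation of one unshuffle of `2 * M` chunks -/
def unsh (M p : ℕ) : ℕ := if p < M then 2 * p else 2 * (p - M) + 1

theorem cat_unsh (M : ℕ) (g : ℕ → List α) :
    cat (2 * M) (fun p => g (unsh M p)) =
      cat M (fun k => g (2 * k)) ++ cat M (fun k => g (2 * k + 1)) := by
  rw [two_mul, cat_add]
  congr 1
  · exact cat_congr fun k hk => by simp [unsh, hk]
  · exact cat_congr fun k hk => by simp [unsh]

/-- the chunk sequence after `r` unshuffles -/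
def unshIter (M : ℕ) (g : ℕ → List α) : ℕ → ℕ → List α
  | 0 => g
  | r + 1 => fun p => unshIter M g r (unsh M p)

/-- After `r` unshuffles of a sequence of `m * 2 ^ r` chunks. -/
theorem unshIter_eq (M : ℕ) (g : ℕ → List α) : ∀ (r m : ℕ), m * 2 ^ r = 2 * M →
    ∀ q < m, ∀ s < 2 ^ r, unshIter M g r (s * m + q) = g (q * 2 ^ r + s)
  | 0, m, hm, q, hq, s, hs => by
    have : s = 0 := by simpa using hs
    subst this
    simp [unshIter]
  | r + 1, m, hm, q, hq, s, hs => by
    have hm2 : (2 * m) * 2 ^ r = 2 * M := by rw [← hm]; ring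
    have hM : 2 ^ r * m = M := by
      have : 2 * (2 ^ r * m) = 2 * M := by rw [← hm]; ring
      omega
    show unshIter M g r (unsh M (s * m + q)) = _
    by_cases h : s < 2 ^ r
    · have h1 : s * m + q < M := by
        have : (s + 1) * m ≤ 2 ^ r * m := Nat.mul_le_mul_right _ h
        rw [← hM]
        calc s * m + q < s * m + m := by omega
          _ = (s + 1) * m := by ring
          _ ≤ _ := this
      have h2 : unsh M (s * m + q) = s * (2 * m) + 2 * q := by
        simp only [unsh, h1, if_true]; ring
      rw [h2, unshIter_eq M g r (2 * m) hm2 (2 * q) (by omega) s h]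
      congr 1
      rw [pow_succ]; ring
    · push Not at h
      obtain ⟨s', rfl⟩ := Nat.exists_eq_add_of_le h
      have hs' : s' < 2 ^ r := by rw [pow_succ] at hs; omega
      have h0 : (2 ^ r + s') * m + q = M + (s' * m + q) := by rw [← hM]; ring
      have h2 : unsh M ((2 ^ r + s') * m + q) = s' * (2 * m) + (2 * q + 1) := by
        rw [h0]
        simp only [unsh, if_neg (not_lt.2 (Nat.le_add_right _ _)), Nat.add_sub_cancel_left]; ring
      rw [h2, unshIter_eq M g r (2 * m) hm2 (2 * q + 1) (by omega) s' hs']
      congr 1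
      rw [pow_succ]; ring

/-- **Naive swap.** `r` unshuffles of a `K₁ × 2^r` matrix of chunks transpose it. -/
theorem cat_unshIter (K₁ r M : ℕ) (hM : K₁ * 2 ^ r = 2 * M) (f : ℕ → ℕ → List α)
    (g : ℕ → List α) (hg : ∀ i < K₁, ∀ s < 2 ^ r, g (i * 2 ^ r + s) = f i s) :
    cat (2 * M) (unshIter M g r) = cat (2 ^ r) (fun s => cat K₁ (fun i => f i s)) := by
  rw [← hM, mul_comm, cat_mul]
  refine cat_congr fun s hs => cat_congr fun i hi => ?_
  rw [unshIter_eq M g r K₁ hM i hi s hs, hg i hi s hs]

end Vale.Agent.P338.H666
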