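import Vale.Agent.P338.H666.Sieve
import Vale.Agent.P338.H463.NumM
import Vale.Agent.P338.H463.NumE

/-!
# Search of a primitive root

Registers: ruler `S` (`p - 1` ticks), ruler `W` (width), the running power `X`, candidate `OM`,
modulus `P`, the constant `ONE`, the unary counter `CNT`, flags `FL`, `E`, and the temporaries of
the arithmetic.
-/

namespace Vale.Agent.P338.H666

open Vale.Agent.P338

/-- Registers of the search. -/
inductive QR : Type
  | S | S' | W | W' | X | OM | P | ONE | CNT | FL | E | ACC | ta | tb | tp | tx | c1 | c2 | yr | bt | f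
  deriving DecidableEq

/-- Contents of the registers. -/
structure QS where
  S : List Bool := []
  S' : List Bool := []
  W : List Bool := []
  W' : List Bool := []
  X : List Bool := []
  OM : List Bool := []
  P : List Bool := []
  ONE : List Bool := []
  CNT : List Bool := []
  FL : List Bool := []
  E : List Bool := []
  ACC : List Bool := []
  ta : List Bool := []
  tb : List Bool := []
  tp : List Bool := []
  tx : List Bool := []
  c1 : List Bool := []
  c2 : List Bool := []
  yr : List Bool := []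
  bt : List Bool := []
  f : List Bool := []

/-- The store of a structure. -/
def QS.st (s : QS) : Store QR Bool
  | .S => s.S
  | .S' => s.S'
  | .W => s.W
  | .W' => s.W'
  | .X => s.X
  | .OM => s.OM
  | .P => s.P
  | .ONE => s.ONE
  | .CNT => s.CNT
  | .FL => s.FL
  | .E => s.E
  | .ACC => s.ACC
  | .ta => s.ta
  | .tb => s.tb
  | .tp => s.tp
  | .tx => s.tx
  | .c1 => s.c1
  | .c2 => s.c2
  | .yr => s.yr
  | .bt => s.bt
  | .f => s.f

section upd

variable (s : QS) (l : List Bool)

theorem QS.upd_S : Function.update s.st QR.S l = { s with S := l }.st := by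
  funext r; cases r <;> rfl
theorem QS.upd_Sp : Function.update s.st QR.S' l = { s with S' := l }.st := by
  funext r; cases r <;> rfl
theorem QS.upd_W : Function.update s.st QR.W l = { s with W := l }.st := by
  funext r; cases r <;> rfl
theorem QS.upd_Wp : Function.update s.st QR.W' l = { s with W' := l }.st := by
  funext r; cases r <;> rfl
theorem QS.upd_X : Function.update s.st QR.X l = { s with X := l }.st := by
  funext r; cases r <;> rfl
theorem QS.upd_OM : Function.update s.st QR.OM l = { s with OM := l }.st := by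
  funext r; cases r <;> rfl
theorem QS.upd_P : Function.update s.st QR.P l = { s with P := l }.st := by
  funext r; cases r <;> rfl
theorem QS.upd_ONE : Function.update s.st QR.ONE l = { s with ONE := l }.st := by
  funext r; cases r <;> rfl
theorem QS.upd_CNT : Function.update s.st QR.CNT l = { s with CNT := l }.st := by
  funext r; cases r <;> rfl
theorem QS.upd_FL : Function.update s.st QR.FL l = { s with FL := l }.st := by
  funext r; cases r <;> rfl
theorem QS.upd_E : Function.update s.st QR.E l = { s with E := l }.st := by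
  funext r; cases r <;> rfl
theorem QS.upd_ACC : Function.update s.st QR.ACC l = { s with ACC := l }.st := by
  funext r; cases r <;> rfl
theorem QS.upd_ta : Function.update s.st QR.ta l = { s with ta := l }.st := by
  funext r; cases r <;> rfl
theorem QS.upd_tb : Function.update s.st QR.tb l = { s with tb := l }.st := by
  funext r; cases r <;> rfl
theorem QS.upd_tp : Function.update s.st QR.tp l = { s with tp := l }.st := by
  funext r; cases r <;> rfl
theorem QS.upd_tx : Function.update s.st QR.tx l = { s with tx := l }.st := by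
  funext r; cases r <;> rfl
theorem QS.upd_c1 : Function.update s.st QR.c1 l = { s with c1 := l }.st := by
  funext r; cases r <;> rfl
theorem QS.upd_c2 : Function.update s.st QR.c2 l = { s with c2 := l }.st := by
  funext r; cases r <;> rfl
theorem QS.upd_yr : Function.update s.st QR.yr l = { s with yr := l }.st := by
  funext r; cases r <;> rfl
theorem QS.upd_bt : Function.update s.st QR.bt l = { s with bt := l }.st := by
  funext r; cases r <;> rfl
theorem QS.upd_f : Function.update s.st QR.f l = { s with f := l }.st := by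
  funext r; cases r <;> rfl

end upd

/-- registers of the multiplication: `ACC := X * OM mod P` -/
def eMul : Num.NR → QR
  | .acc => .ACC | .x => .X | .y => .OM | .p => .P | .ta => .ta | .tb => .tb | .tp => .tp
  | .tx => .tx | .c1 => .c1 | .c2 => .c2 | .yr => .yr | .bt => .bt | .f => .f

/-- registers of the comparison of `X` and `ONE` -/
def eEq : Num.ER → QR
  | .a => .X | .b => .ONE | .ta => .ta | .tb => .tb | .f => .E

/-- registers of the increment of `OM` -/
def eInc : Num.IR → QR
  | .a => .OM | .t => .ta | .c => .tb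

/-- registers of the increment of `P` -/
def eIncP : Num.IR → QR
  | .a => .P | .t => .ta | .c => .tb

theorem eMul_injective : Function.Injective eMul := by
  intro u v h
  cases u <;> cases v <;> first | rfl | (exact absurd h (by decide))
theorem eEq_injective : Function.Injective eEq := by
  intro u v h
  cases u <;> cases v <;> first | rfl | (exact absurd h (by decide))
theorem eInc_injective : Function.Injective eInc := by
  intro u v h
  cases u <;> cases v <;> first | rfl | (exact absurd h (by decide))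
theorem eIncP_injective : Function.Injective eIncP := by
  intro u v h
  cases u <;> cases v <;> first | rfl | (exact absurd h (by decide))

/-- the temporaries are empty -/
structure QS.Cl (s : QS) : Prop where
  ta : s.ta = []
  tb : s.tb = []
  tp : s.tp = []
  tx : s.tx = []
  c1 : s.c1 = []
  c2 : s.c2 = []
  yr : s.yr = []
  bt : s.bt = []
  f : s.f = []

/-- `ACC := X * OM mod P` -/
noncomputable def mulQ : Prog QR Bool := Num.mulP.ren eMul
/-- `E := [X = ONE]` -/
noncomputable def eqQ : Prog QR Bool := Num.eqP.ren eEq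
/-- `OM := OM + 1` -/
noncomputable def incQ : Prog QR Bool := Num.incP.ren eInc
/-- `P := P + 1` -/
noncomputable def incPQ : Prog QR Bool := Num.incP.ren eIncP

theorem mulQ_runs {W p u v : ℕ} (hu : u < p) (hv : v < p) (hP : 2 * p ≤ 2 ^ W) (s : QS)
    (hc : s.Cl) (hx : s.X = lbits W u) (hy : s.OM = lbits W v) (hp : s.P = lbits W p)
    (hacc : s.ACC = []) :
    Runs mulQ s.st { s with ACC := lbits W (u * v % p) }.st (20 * W ^ 2 + 52 * W + 4) := by
  have h := Num.mulP_runs hu hv hP (Num.NS.mk [] s.X s.OM s.P [] [] [] [] [] [] [] [] [])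
    ⟨rfl, rfl, rfl, rfl, rfl, rfl⟩ hx hy hp rfl rfl rfl
  have h2 : ({ (Num.NS.mk [] s.X s.OM s.P [] [] [] [] [] [] [] [] []) with
      acc := lbits W (u * v % p) : Num.NS }).st =
      Function.update (Num.NS.mk [] s.X s.OM s.P [] [] [] [] [] [] [] [] []).st .acc
        (lbits W (u * v % p)) := by
    funext r; cases r <;> rfl
  rw [h2] at h
  refine (h.ren_update eMul_injective s.st ?_).conv ?_ le_rfl
  · intro l
    cases l
    · exact hacc
    · rfl
    · rfl
    · rfl
    · exact hc.ta
    · exact hc.tb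
    · exact hc.tp
    · exact hc.tx
    · exact hc.c1
    · exact hc.c2
    · exact hc.yr
    · exact hc.bt
    · exact hc.f
  · exact QS.upd_ACC s _

theorem eqQ_runs {W u : ℕ} (hu : u < 2 ^ W) (h1 : 1 < 2 ^ W) (s : QS) (hc : s.Cl)
    (hx : s.X = lbits W u) (hy : s.ONE = lbits W 1) (hE : s.E = []) :
    Runs eqQ s.st { s with E := [decide (u = 1)] }.st (6 * W + 4) := by
  have h := Num.eqP_num hu h1
  have h2 : Num.est (lbits W u) (lbits W 1) [] [] [decide (u = 1)] =
      Function.update (Num.est (lbits W u) (lbits W 1) [] [] []) .f [decide (u = 1)] := by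
    funext r; cases r <;> rfl
  rw [h2] at h
  refine (h.ren_update eEq_injective s.st ?_).conv ?_ le_rfl
  · intro l
    cases l
    · exact hx
    · exact hy
    · exact hc.ta
    · exact hc.tb
    · exact hE
  · exact QS.upd_E s _

theorem incQ_runs {W v : ℕ} (hv : v + 1 < 2 ^ W) (s : QS) (hc : s.Cl)
    (hx : s.OM = lbits W v) :
    Runs incQ s.st { s with OM := lbits W (v + 1) }.st (4 * W + 6) := by
  have h := Num.incP_runs hv
  have h2 : Num.ist (lbits W (v + 1)) [] [] =
      Function.update (Num.ist (lbits W v) [] []) .a (lbits W (v + 1)) := by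
    funext r; cases r <;> rfl
  rw [h2] at h
  refine (h.ren_update eInc_injective s.st ?_).conv ?_ le_rfl
  · intro l
    cases l
    · exact hx
    · exact hc.ta
    · exact hc.tb
  · exact QS.upd_OM s _

theorem incPQ_runs {W v : ℕ} (hv : v + 1 < 2 ^ W) (s : QS) (hta : s.ta = []) (htb : s.tb = [])
    (hx : s.P = lbits W v) :
    Runs incPQ s.st { s with P := lbits W (v + 1) }.st (4 * W + 6) := by
  have h := Num.incP_runs hv
  have h2 : Num.ist (lbits W (v + 1)) [] [] =
      Function.update (Num.ist (lbits W v) [] []) .a (lbits W (v + 1)) := by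
    funext r; cases r <;> rfl
  rw [h2] at h
  refine (h.ren_update eIncP_injective s.st ?_).conv ?_ le_rfl
  · intro l
    cases l
    · exact hx
    · exact hta
    · exact htb
  · exact QS.upd_P s _

/-! ### Small steps -/

theorem QS.clear_X (s : QS) : Runs (.clear .X) s.st { s with X := [] }.st
    (2 * s.X.length + 1) :=
  (Runs.clear _ _).conv (by rw [QS.upd_X]) le_rfl

theorem QS.clear_ta (s : QS) : Runs (.clear .ta) s.st { s with ta := [] }.st
    (2 * s.ta.length + 1) :=
  (Runs.clear _ _).conv (by rw [QS.upd_ta]) le_rfl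

theorem QS.flip_ACCta (s : QS) : Runs (.flip .ACC .ta) s.st
    { s with ACC := [], ta := s.ACC.reverse ++ s.ta }.st (2 * s.ACC.length + 1) :=
  (Runs.flip (by decide) _).conv (by rw [QS.upd_ACC, QS.upd_ta]; rfl) le_rfl

theorem QS.flip_taX (s : QS) : Runs (.flip .ta .X) s.st
    { s with ta := [], X := s.ta.reverse ++ s.X }.st (2 * s.ta.length + 1) :=
  (Runs.flip (by decide) _).conv (by rw [QS.upd_ta, QS.upd_X]; rfl) le_rfl

theorem QS.flip_tbS (s : QS) : Runs (.flip .tb .S) s.st
    { s with tb := [], S := s.tb.reverse ++ s.S }.st (2 * s.tb.length + 1) :=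
  (Runs.flip (by decide) _).conv (by rw [QS.upd_tb, QS.upd_S]; rfl) le_rfl

theorem QS.pop_E (s : QS) : Runs (.pop .E) s.st { s with E := s.E.tail }.st 1 :=
  (Runs.pop _ _).conv (by rw [QS.upd_E]; rfl) le_rfl

theorem QS.push_CNT (s : QS) : Runs (.push .CNT false) s.st
    { s with CNT := false :: s.CNT }.st 1 :=
  (Runs.push _ _ _).conv (by rw [QS.upd_CNT]; rfl) le_rfl

theorem QS.push_FL (s : QS) : Runs (.push .FL true) s.st
    { s with FL := true :: s.FL }.st 1 :=
  (Runs.push _ _ _).conv (by rw [QS.upd_FL]; rfl) le_rfl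

/-- `X := X * OM mod P` -/
noncomputable def stepPow : Prog QR Bool :=
  .seq mulQ (.seq (.clear .X) (.seq (.flip .ACC .ta) (.flip .ta .X)))

theorem len_lbits (w x : ℕ) : (lbits w x).length = w := Num.lbits_length w x

theorem stepPow_runs {W p u v : ℕ} (hu : u < p) (hv : v < p) (hP : 2 * p ≤ 2 ^ W) (s : QS)
    (hc : s.Cl) (hx : s.X = lbits W u) (hy : s.OM = lbits W v) (hp : s.P = lbits W p)
    (hacc : s.ACC = []) :
    Runs stepPow s.st { s with X := lbits W (u * v % p) }.st (20 * W ^ 2 + 58 * W + 7) := by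
  have hta := hc.ta
  refine ((mulQ_runs hu hv hP s hc hx hy hp hacc).seq ((QS.clear_X _).seq
    ((QS.flip_ACCta _).seq (QS.flip_taX _)))).conv ?_ ?_
  · simp only [hta, hacc, List.append_nil, List.reverse_reverse]
  · simp only [hx, hta, List.append_nil, List.length_reverse, len_lbits]; omega

/-- one round of the power loop -/
noncomputable def powBody : Prog QR Bool :=
  .seq (.pop .E) (.seq stepPow (.seq (.push .CNT false) eqQ))

theorem QS.Cl.of_eq {s s' : QS} (h : s.Cl) (e : s'.ta = s.ta ∧ s'.tb = s.tb ∧ s'.tp = s.tp ∧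
    s'.tx = s.tx ∧ s'.c1 = s.c1 ∧ s'.c2 = s.c2 ∧ s'.yr = s.yr ∧ s'.bt = s.bt ∧ s'.f = s.f) :
    s'.Cl :=
  ⟨e.1.trans h.ta, e.2.1.trans h.tb, e.2.2.1.trans h.tp, e.2.2.2.1.trans h.tx,
    e.2.2.2.2.1.trans h.c1, e.2.2.2.2.2.1.trans h.c2, e.2.2.2.2.2.2.1.trans h.yr,
    e.2.2.2.2.2.2.2.1.trans h.bt, e.2.2.2.2.2.2.2.2.trans h.f⟩

theorem powLoop_runs {W p om e : ℕ} (hom : om < p) (hp1 : 1 < p) (hP : 2 * p ≤ 2 ^ W)
    (he : 1 ≤ e) (he1 : om ^ e % p = 1) (hmin : ∀ k, 1 ≤ k → k < e → om ^ k % p ≠ 1)
    (s : QS) (hc : s.Cl) (hX : s.X = lbits W om) (hO : s.OM = lbits W om)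
    (hp : s.P = lbits W p) (h1 : s.ONE = lbits W 1) (hacc : s.ACC = []) (hC : s.CNT = zer 1)
    (hE : s.E = [decide (om = 1)]) :
    Runs (.loop (fun t => t .E == some false) powBody) s.st
      { s with X := lbits W 1, CNT := zer e, E := [true] }.st
      ((e - 1) * (20 * W ^ 2 + 64 * W + 14) + 1) := by
  have h := Runs.loop_family (t := fun t : QR → Option Bool => t .E == some false)
    (body := powBody)
    (fun j => { s with
      X := lbits W (om ^ (j + 1) % p), CNT := zer (j + 1),
      E := [decide (om ^ (j + 1) % p = 1)] }.st) (e - 1)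
    (fun _ => 20 * W ^ 2 + 64 * W + 13)
    (by
      intro j hj
      have := hmin (j + 1) (by omega) (by omega)
      show ((some (decide (om ^ (j + 1) % p = 1)) : Option Bool) == some false) = true
      simp [this])
    (by
      show ((some (decide (om ^ (e - 1 + 1) % p = 1)) : Option Bool) == some false) = false
      rw [Nat.sub_add_cancel he]
      simp [he1])
    (by
      intro j hj
      have hlt : om ^ (j + 1) % p < p := Nat.mod_lt _ (by omega)
      have hlt2 : om ^ (j + 1) % p * om % p < p := Nat.mod_lt _ (by omega)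
      have e2 : om ^ (j + 1) % p * om % p = om ^ (j + 1 + 1) % p := by
        rw [pow_succ om (j + 1), Nat.mod_mul_mod]
      have g1 := QS.pop_E { s with
        X := lbits W (om ^ (j + 1) % p), CNT := zer (j + 1),
        E := [decide (om ^ (j + 1) % p = 1)] }
      have g2 := stepPow_runs hlt hom hP { s with
        X := lbits W (om ^ (j + 1) % p), CNT := zer (j + 1), E := [] }
        (hc.of_eq ⟨rfl, rfl, rfl, rfl, rfl, rfl, rfl, rfl, rfl⟩) rfl hO hp hacc
      have g3 := QS.push_CNT { s with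
        X := lbits W (om ^ (j + 1) % p * om % p), CNT := zer (j + 1), E := [] }
      have g4 := eqQ_runs (W := W) (u := om ^ (j + 1) % p * om % p) (by omega) (by omega)
        { s with
          X := lbits W (om ^ (j + 1) % p * om % p), CNT := zer (j + 1 + 1), E := [] }
        (hc.of_eq ⟨rfl, rfl, rfl, rfl, rfl, rfl, rfl, rfl, rfl⟩) rfl h1 rfl
      rw [e2] at g2 g3 g4
      exact (g1.seq (g2.seq (g3.seq g4))).weaken (by omega))
  rw [Nat.sub_add_cancel he, he1, Nat.zero_add, pow_one, Nat.mod_eq_of_lt hom, ← hX, ← hC,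
    ← hE] at h
  refine (h.conv ?_ ?_)
  · simp
  · simp only [Finset.sum_const, Finset.card_range, smul_eq_mul]; exact le_rfl

/-- compare `CNT` and `S`, moving them to `ta`, `tb` -/
def cmpLoop : Prog QR Bool :=
  .loop (fun t => (t .CNT).isSome && (t .S).isSome) (.seq (.mv .CNT .ta) (.mv .S .tb))

theorem QS.mv2 (s : QS) (x y : List Bool) (hC : s.CNT = false :: x) (hS : s.S = false :: y) :
    Runs (.seq (.mv .CNT .ta) (.mv .S .tb)) s.st
      { s with CNT := x, S := y, ta := false :: s.ta, tb := false :: s.tb }.st 2 := by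
  have g1 : Runs (.mv .CNT .ta) s.st { s with CNT := x, ta := false :: s.ta }.st 1 := by
    refine (Runs.mv_cons (r := QR.CNT) (q := QR.ta) (by decide) (s := s.st) (a := false)
      (l := x) hC).conv ?_ le_rfl
    rw [QS.upd_CNT, QS.upd_ta]; rfl
  have g2 : Runs (.mv .S .tb) { s with CNT := x, ta := false :: s.ta }.st
      { s with CNT := x, S := y, ta := false :: s.ta, tb := false :: s.tb }.st 1 := by
    refine (Runs.mv_cons (r := QR.S) (q := QR.tb) (by decide)
      (s := { s with CNT := x, ta := false :: s.ta }.st) (a := false) (l := y) hS).conv ?_ le_rfl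
    rw [QS.upd_S, QS.upd_tb]; rfl
  exact g1.seq g2

theorem cmpLoop_runs (e q : ℕ) (heq : e ≤ q) (s : QS) (hC : s.CNT = zer e) (hS : s.S = zer q)
    (hta : s.ta = []) (htb : s.tb = []) :
    Runs cmpLoop s.st { s with CNT := [], S := zer (q - e), ta := zer e, tb := zer e }.st
      (3 * e + 1) := by
  have h := Runs.loop_family
    (t := fun t : QR → Option Bool => (t .CNT).isSome && (t .S).isSome)
    (body := .seq (.mv .CNT .ta) (.mv .S .tb))
    (fun j => { s with CNT := zer (e - j), S := zer (q - j), ta := zer j, tb := zer j }.st) e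
    (fun _ => 2)
    (by
      intro j hj
      show ((zer (e - j)).head?.isSome && (zer (q - j)).head?.isSome) = true
      rw [show e - j = (e - j - 1) + 1 by omega, show q - j = (q - j - 1) + 1 by omega, zer_succ,
        zer_succ]
      rfl)
    (by
      show ((zer (e - e)).head?.isSome && (zer (q - e)).head?.isSome) = false
      have z : (zer (e - e)).head?.isSome = false := by rw [Nat.sub_self]; rfl
      rw [z, Bool.false_and])
    (by
      intro j hj
      have a1 : zer (e - j) = false :: zer (e - (j + 1)) := by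
        rw [← zer_succ]; congr 1; omega
      have a2 : zer (q - j) = false :: zer (q - (j + 1)) := by
        rw [← zer_succ]; congr 1; omega
      exact QS.mv2 { s with CNT := zer (e - j), S := zer (q - j), ta := zer j, tb := zer j }
        (zer (e - (j + 1))) (zer (q - (j + 1))) a1 a2)
  have h0 : ({ s with
      CNT := zer (e - 0), S := zer (q - 0), ta := zer 0, tb := zer 0 } : QS) = s := by
    rw [Nat.sub_zero, Nat.sub_zero, ← hC, ← hS]
    have z : zer 0 = [] := rfl
    rw [z]
    nth_rewrite 1 [← hta]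
    rw [← htb]
  simp only [h0] at h
  refine (h.conv ?_ ?_)
  · rw [Nat.sub_self]; rfl
  · simp only [Finset.sum_const, Finset.card_range, smul_eq_mul]; omega

theorem QS.copy_OMX (s : QS) (h : s.ta = []) : Runs (.copy .OM .ta .X) s.st
    { s with X := s.OM ++ s.X }.st (4 * s.OM.length + 2) :=
  (Runs.copy (s := s.st) (r := QR.OM) (q := QR.ta) (dst := QR.X) (by decide) (by decide)
    (by decide) h).conv (by rw [QS.upd_X]; rfl) le_rfl

/-- accept if the counter was equal to the ruler -/
def decideP : Prog QR Bool := .branch fun t => match t .S with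
  | none => .push .FL true
  | some _ => .nop

/-- next candidate if not found -/
noncomputable def nextP : Prog QR Bool := .branch fun t => match t .FL with
  | none => incQ
  | some _ => .nop

/-- test one candidate -/
noncomputable def cand : Prog QR Bool :=
  .seq (.copy .OM .ta .X) (.seq (.push .CNT false) (.seq eqQ
    (.seq (.loop (fun t => t .E == some false) powBody) (.seq (.pop .E) (.seq (.clear .X)
      (.seq cmpLoop (.seq decideP (.seq (.flip .tb .S) (.seq (.clear .ta) nextP)))))))))

theorem cand_runs {W p om e : ℕ} (hom : om < p) (hp1 : 1 < p) (hP : 2 * p ≤ 2 ^ W)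
    (he : 1 ≤ e) (he1 : om ^ e % p = 1) (hmin : ∀ k, 1 ≤ k → k < e → om ^ k % p ≠ 1)
    (hep : e ≤ p - 1)
    (s : QS) (hc : s.Cl) (hX : s.X = []) (hO : s.OM = lbits W om)
    (hp : s.P = lbits W p) (h1 : s.ONE = lbits W 1) (hacc : s.ACC = []) (hC : s.CNT = [])
    (hE : s.E = []) (hS : s.S = zer (p - 1)) (hFL : s.FL = []) (hS' : s.S' = [])
    (hW' : s.W' = []) :
    Runs cand s.st (if e = p - 1 then { s with FL := [true] }.st
        else { s with OM := lbits W (om + 1) }.st)
      (p * (20 * W ^ 2 + 64 * W + 21) + 16 * W + 30) := by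
  obtain ⟨S, S', W', W'', X, OM, P, ONE, CNT, FL, E, ACC, ta, tb, tp, tx, c1, c2, yr, bt, f⟩ := s
  dsimp only at hX hO hp h1 hacc hC hE hS hFL
  obtain ⟨hta, htb, htp, htx, hc1, hc2, hyr, hbt, hf⟩ := hc
  dsimp only at hta htb htp htx hc1 hc2 hyr hbt hf hS' hW'
  subst hX hO hp h1 hacc hC hE hS hFL hta htb htp htx hc1 hc2 hyr hbt hf hS' hW'
  have g1 : Runs (.copy .OM .ta .X) (QS.mk (zer (p - 1)) [] W' [] [] (lbits W om) (lbits W p)
      (lbits W 1) [] [] [] [] [] [] [] [] [] [] [] [] []).st
      (QS.mk (zer (p - 1)) [] W' [] (lbits W om) (lbits W om) (lbits W p)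
      (lbits W 1) [] [] [] [] [] [] [] [] [] [] [] [] []).st (4 * W + 2) :=
    (QS.copy_OMX _ rfl).conv (by simp only [List.append_nil]) (by simp only [len_lbits]; rfl)
  have g2 : Runs (.push .CNT false)
      (QS.mk (zer (p - 1)) [] W' [] (lbits W om) (lbits W om) (lbits W p)
      (lbits W 1) [] [] [] [] [] [] [] [] [] [] [] [] []).st
      (QS.mk (zer (p - 1)) [] W' [] (lbits W om) (lbits W om) (lbits W p)
      (lbits W 1) (zer 1) [] [] [] [] [] [] [] [] [] [] [] []).st 1 :=
    (QS.push_CNT _).conv rfl le_rfl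
  have g3 := eqQ_runs (W := W) (u := om) (by omega) (by omega)
    (QS.mk (zer (p - 1)) [] W' [] (lbits W om) (lbits W om) (lbits W p)
      (lbits W 1) (zer 1) [] [] [] [] [] [] [] [] [] [] [] [])
    ⟨rfl, rfl, rfl, rfl, rfl, rfl, rfl, rfl, rfl⟩ rfl rfl rfl
  have g4 := powLoop_runs hom hp1 hP he he1 hmin
    (QS.mk (zer (p - 1)) [] W' [] (lbits W om) (lbits W om) (lbits W p)
      (lbits W 1) (zer 1) [] [decide (om = 1)] [] [] [] [] [] [] [] [] [] [])
    ⟨rfl, rfl, rfl, rfl, rfl, rfl, rfl, rfl, rfl⟩ rfl rfl rfl rfl rfl rfl rfl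
  have g5 : Runs (.pop .E)
      (QS.mk (zer (p - 1)) [] W' [] (lbits W 1) (lbits W om) (lbits W p)
      (lbits W 1) (zer e) [] [true] [] [] [] [] [] [] [] [] [] []).st
      (QS.mk (zer (p - 1)) [] W' [] (lbits W 1) (lbits W om) (lbits W p)
      (lbits W 1) (zer e) [] [] [] [] [] [] [] [] [] [] [] []).st 1 :=
    (QS.pop_E _).conv rfl le_rfl
  have g6 : Runs (.clear .X)
      (QS.mk (zer (p - 1)) [] W' [] (lbits W 1) (lbits W om) (lbits W p)
      (lbits W 1) (zer e) [] [] [] [] [] [] [] [] [] [] [] []).st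
      (QS.mk (zer (p - 1)) [] W' [] [] (lbits W om) (lbits W p)
      (lbits W 1) (zer e) [] [] [] [] [] [] [] [] [] [] [] []).st (2 * W + 1) :=
    (QS.clear_X _).conv rfl (by simp only [len_lbits]; exact le_rfl)
  have g7 := cmpLoop_runs e (p - 1) hep
    (QS.mk (zer (p - 1)) [] W' [] [] (lbits W om) (lbits W p)
      (lbits W 1) (zer e) [] [] [] [] [] [] [] [] [] [] [] []) rfl rfl rfl rfl
  have k1 : e * (20 * W ^ 2 + 64 * W + 21) ≤ p * (20 * W ^ 2 + 64 * W + 21) :=
    Nat.mul_le_mul_right _ (by omega)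
  have k2 : (e - 1) * (20 * W ^ 2 + 64 * W + 14) + 7 * e ≤
      e * (20 * W ^ 2 + 64 * W + 21) := by
    have : (e - 1) * (20 * W ^ 2 + 64 * W + 14) ≤ e * (20 * W ^ 2 + 64 * W + 14) :=
      Nat.mul_le_mul_right _ (by omega)
    have h7 : e * (20 * W ^ 2 + 64 * W + 21) = e * (20 * W ^ 2 + 64 * W + 14) + 7 * e := by ring
    omega
  split_ifs with hcase
  · have g8 : Runs decideP
        (QS.mk (zer (p - 1 - e)) [] W' [] [] (lbits W om) (lbits W p)
        (lbits W 1) [] [] [] [] (zer e) (zer e) [] [] [] [] [] [] []).st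
        (QS.mk [] [] W' [] [] (lbits W om) (lbits W p)
        (lbits W 1) [] [true] [] [] (zer e) (zer e) [] [] [] [] [] [] []).st 2 := by
      refine Runs.branch ?_
      have z : zer (p - 1 - e) = [] := by rw [hcase, Nat.sub_self]; rfl
      rw [z]
      exact QS.push_FL _
    have g9 := QS.flip_tbS (QS.mk [] [] W' [] [] (lbits W om) (lbits W p)
        (lbits W 1) [] [true] [] [] (zer e) (zer e) [] [] [] [] [] [] [])
    have g10 := QS.clear_ta (QS.mk ((zer e).reverse ++ []) [] W' [] [] (lbits W om) (lbits W p)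
        (lbits W 1) [] [true] [] [] (zer e) [] [] [] [] [] [] [] [])
    have g11 : Runs nextP (QS.mk ((zer e).reverse ++ []) [] W' [] [] (lbits W om) (lbits W p)
        (lbits W 1) [] [true] [] [] [] [] [] [] [] [] [] [] []).st
        (QS.mk ((zer e).reverse ++ []) [] W' [] [] (lbits W om) (lbits W p)
        (lbits W 1) [] [true] [] [] [] [] [] [] [] [] [] [] []).st 2 :=
      Runs.branch (Runs.nop _)
    refine (g1.seq (g2.seq (g3.seq (g4.seq (g5.seq (g6.seq (g7.seq (g8.seq (g9.seq
      (g10.seq g11)))))))))).conv ?_ ?_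
    · rw [zer_reverse, List.append_nil, hcase]
    · simp only [zer, List.length_replicate]
      omega
  · have hlt : e < p - 1 := by omega
    have g8 : Runs decideP
        (QS.mk (zer (p - 1 - e)) [] W' [] [] (lbits W om) (lbits W p)
        (lbits W 1) [] [] [] [] (zer e) (zer e) [] [] [] [] [] [] []).st
        (QS.mk (zer (p - 1 - e)) [] W' [] [] (lbits W om) (lbits W p)
        (lbits W 1) [] [] [] [] (zer e) (zer e) [] [] [] [] [] [] []).st 2 := by
      refine Runs.branch ?_
      have z : zer (p - 1 - e) = false :: zer (p - 1 - e - 1) := by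
        rw [← zer_succ]; congr 1; omega
      rw [z]
      exact Runs.nop _
    have g9 := QS.flip_tbS (QS.mk (zer (p - 1 - e)) [] W' [] [] (lbits W om) (lbits W p)
        (lbits W 1) [] [] [] [] (zer e) (zer e) [] [] [] [] [] [] [])
    have g10 := QS.clear_ta (QS.mk ((zer e).reverse ++ zer (p - 1 - e)) [] W' [] []
        (lbits W om) (lbits W p) (lbits W 1) [] [] [] [] (zer e) [] [] [] [] [] [] [] [])
    have g11 : Runs nextP (QS.mk ((zer e).reverse ++ zer (p - 1 - e)) [] W' [] []
        (lbits W om) (lbits W p) (lbits W 1) [] [] [] [] [] [] [] [] [] [] [] [] []).st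
        (QS.mk ((zer e).reverse ++ zer (p - 1 - e)) [] W' [] []
        (lbits W (om + 1)) (lbits W p) (lbits W 1) [] [] [] [] [] [] [] [] [] [] [] [] []).st
        (4 * W + 7) :=
      Runs.branch (incQ_runs (by omega) _ ⟨rfl, rfl, rfl, rfl, rfl, rfl, rfl, rfl, rfl⟩
        rfl)
    refine (g1.seq (g2.seq (g3.seq (g4.seq (g5.seq (g6.seq (g7.seq (g8.seq (g9.seq
      (g10.seq g11)))))))))).conv ?_ ?_
    · rw [zer_reverse, zer_append, show e + (p - 1 - e) = p - 1 by omega]
    · simp only [zer, List.length_replicate]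
      omega

/-! ### The least primitive root -/

/-- the least positive `om` whose order modulo `p` is `p - 1` -/
noncomputable def lroot (p : ℕ) : ℕ := sInf {om | 0 < om ∧ orderOf ((om : ℕ) : ZMod p) = p - 1}

theorem pow_mod_eq_one_iff {p : ℕ} (hp : p.Prime) (a k : ℕ) :
    a ^ k % p = 1 ↔ ((a : ZMod p)) ^ k = 1 := by
  have h : ((a : ZMod p)) ^ k = 1 ↔ ((a ^ k : ℕ) : ZMod p) = ((1 : ℕ) : ZMod p) := by
    rw [Nat.cast_pow, Nat.cast_one]
  rw [h, ZMod.natCast_eq_natCast_iff, Nat.ModEq, Nat.mod_eq_of_lt hp.one_lt]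

theorem lroot_set_nonempty {p : ℕ} (hp : p.Prime) :
    ∃ om, om < p ∧ 0 < om ∧ orderOf ((om : ℕ) : ZMod p) = p - 1 := by
  obtain ⟨om, h0, h1, g, hg, ho⟩ := D.exists_root hp
  exact ⟨om, h1, h0, by rw [← hg, orderOf_units, ho]⟩

theorem lroot_spec {p : ℕ} (hp : p.Prime) :
    0 < lroot p ∧ orderOf ((lroot p : ℕ) : ZMod p) = p - 1 := by
  obtain ⟨om, h1, h2⟩ := lroot_set_nonempty hp
  exact Nat.sInf_mem (s := {om | 0 < om ∧ orderOf ((om : ℕ) : ZMod p) = p - 1}) ⟨om, h2⟩

theorem lroot_lt {p : ℕ} (hp : p.Prime) : lroot p < p := by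
  obtain ⟨om, h1, h2⟩ := lroot_set_nonempty hp
  exact (Nat.sInf_le h2).trans_lt h1

theorem lroot_min {p a : ℕ} (h0 : 0 < a) (h : a < lroot p) :
    orderOf ((a : ℕ) : ZMod p) ≠ p - 1 := fun h1 =>
  Nat.notMem_of_lt_sInf h ⟨h0, h1⟩

theorem lroot_test {p : ℕ} (hp : p.Prime) (e : ℕ) (h0 : 0 < e) (h1 : e < p - 1) :
    lroot p ^ e % p ≠ 1 := by
  rw [Ne, pow_mod_eq_one_iff hp]
  exact pow_ne_one_of_lt_orderOf h0.ne' (by rw [(lroot_spec hp).2]; exact h1)

/-- everything about the order of `a` used by the program -/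
theorem order_facts {p a : ℕ} (hp : p.Prime) (h0 : 0 < a) (h1 : a < p) :
    1 ≤ orderOf ((a : ℕ) : ZMod p) ∧ a ^ orderOf ((a : ℕ) : ZMod p) % p = 1 ∧
      (∀ k, 1 ≤ k → k < orderOf ((a : ℕ) : ZMod p) → a ^ k % p ≠ 1) ∧
      orderOf ((a : ℕ) : ZMod p) ≤ p - 1 := by
  have : Fact p.Prime := ⟨hp⟩
  have hne : ((a : ℕ) : ZMod p) ≠ 0 := by
    intro h
    rw [ZMod.natCast_eq_zero_iff] at h
    exact absurd (Nat.le_of_dvd h0 h) (by omega)
  have hf : ((a : ℕ) : ZMod p) ^ (p - 1) = 1 := ZMod.pow_card_sub_one_eq_one hne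
  have hp2 := hp.two_le
  have hle := Nat.le_of_dvd (by omega) (orderOf_dvd_of_pow_eq_one hf)
  have hpos : 0 < orderOf ((a : ℕ) : ZMod p) :=
    orderOf_pos_iff.2 (isOfFinOrder_iff_pow_eq_one.2 ⟨p - 1, by omega, hf⟩)
  refine ⟨hpos, ?_, fun k hk hk2 => ?_, hle⟩
  · rw [pow_mod_eq_one_iff hp, pow_orderOf_eq_one]
  · rw [Ne, pow_mod_eq_one_iff hp]
    exact pow_ne_one_of_lt_orderOf (by omega) hk2

/-- try the candidates one after the other -/
noncomputable def searchLoop : Prog QR Bool := .loop (fun t => (t .FL).isNone) cand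

theorem searchLoop_runs {W p : ℕ} (hp : p.Prime) (hP : 2 * p ≤ 2 ^ W) (W' : List Bool) :
    Runs searchLoop (QS.mk (zer (p - 1)) [] W' [] [] (lbits W 1) (lbits W p) (lbits W 1)
      [] [] [] [] [] [] [] [] [] [] [] [] []).st
      (QS.mk (zer (p - 1)) [] W' [] [] (lbits W (lroot p)) (lbits W p) (lbits W 1)
      [] [true] [] [] [] [] [] [] [] [] [] [] []).st
      (p * (p * (20 * W ^ 2 + 64 * W + 21) + 16 * W + 31) + 1) := by
  have h0 := (lroot_spec hp).1
  have hlt := lroot_lt hp
  have h := Runs.loop_family (t := fun t : QR → Option Bool => (t .FL).isNone) (body := cand)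
    (fun i => if i < lroot p then
      (QS.mk (zer (p - 1)) [] W' [] [] (lbits W (i + 1)) (lbits W p) (lbits W 1)
        [] [] [] [] [] [] [] [] [] [] [] [] []).st
      else (QS.mk (zer (p - 1)) [] W' [] [] (lbits W (lroot p)) (lbits W p) (lbits W 1)
        [] [true] [] [] [] [] [] [] [] [] [] [] []).st) (lroot p)
    (fun _ => p * (20 * W ^ 2 + 64 * W + 21) + 16 * W + 30)
    (by
      intro i hi
      simp only [hi, if_true]
      rfl)
    (by
      simp only [lt_irrefl, if_false]
      rfl)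
    (by
      intro i hi
      obtain ⟨f1, f2, f3, f4⟩ := order_facts (a := i + 1) hp (by omega) (by omega)
      have := cand_runs (W := W) (p := p) (om := i + 1) (by omega) hp.one_lt hP f1 f2 f3 f4
        (QS.mk (zer (p - 1)) [] W' [] [] (lbits W (i + 1)) (lbits W p) (lbits W 1)
        [] [] [] [] [] [] [] [] [] [] [] [] []) ⟨rfl, rfl, rfl, rfl, rfl, rfl, rfl, rfl, rfl⟩
        rfl rfl rfl rfl rfl rfl rfl rfl rfl rfl rfl
      simp only [hi, if_true]
      refine this.conv ?_ le_rfl
      rcases Nat.lt_or_ge (i + 1) (lroot p) with h1 | h1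
      · rw [if_neg (lroot_min (by omega) h1), if_pos h1]
      · have h2 : i + 1 = lroot p := by omega
        rw [if_pos (by rw [h2]; exact (lroot_spec hp).2), if_neg (by omega), h2])
  simp only [h0, if_true, lt_irrefl, if_false] at h
  refine h.weaken ?_
  simp only [Finset.sum_const, Finset.card_range, smul_eq_mul]
  exact Nat.add_le_add_right (Nat.mul_le_mul_right _ hlt.le) 1

/-! ### The whole program -/

theorem lbits_w_zero (w : ℕ) : lbits w 0 = zer w := by
  induction w with
  | zero => rfl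
  | succ w ih => rw [lbits, ih]; rfl

theorem lbits_one {w : ℕ} (hw : 1 ≤ w) : lbits w 1 = true :: zer (w - 1) := by
  obtain ⟨w, rfl⟩ := Nat.exists_eq_add_of_le' hw
  rw [lbits, Nat.add_sub_cancel, show 1 / 2 = 0 from rfl, lbits_w_zero]
  rfl

theorem QS.copy_ONEP (s : QS) (h : s.ta = []) : Runs (.copy .ONE .ta .P) s.st
    { s with P := s.ONE ++ s.P }.st (4 * s.ONE.length + 2) :=
  (Runs.copy (s := s.st) (r := QR.ONE) (q := QR.ta) (dst := QR.P) (by decide) (by decide)
    (by decide) h).conv (by rw [QS.upd_P]; rfl) le_rfl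

theorem QS.copy_ONEOM (s : QS) (h : s.ta = []) : Runs (.copy .ONE .ta .OM) s.st
    { s with OM := s.ONE ++ s.OM }.st (4 * s.ONE.length + 2) :=
  (Runs.copy (s := s.st) (r := QR.ONE) (q := QR.ta) (dst := QR.OM) (by decide) (by decide)
    (by decide) h).conv (by rw [QS.upd_OM]; rfl) le_rfl

theorem QS.copy_ONEX (s : QS) (h : s.ta = []) : Runs (.copy .ONE .ta .X) s.st
    { s with X := s.ONE ++ s.X }.st (4 * s.ONE.length + 2) :=
  (Runs.copy (s := s.st) (r := QR.ONE) (q := QR.ta) (dst := QR.X) (by decide) (by decide)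
    (by decide) h).conv (by rw [QS.upd_X]; rfl) le_rfl

/-- `ONE := 1` -/
def mkOne : Prog QR Bool := .seq (.fill .W .W' .ONE false) (.seq (.pop .ONE) (.push .ONE true))

theorem mkOne_runs {w : ℕ} (hw : 1 ≤ w) (s : QS) (hW : s.W = zer w) (hW' : s.W' = [])
    (h1 : s.ONE = []) :
    Runs mkOne s.st { s with ONE := lbits w 1 }.st (5 * w + 4) := by
  have g1 := Runs.fill (s := s.st) (r := QR.W) (q := QR.W') (dst := QR.ONE) (a := false)
    (b := false) (n := w) (by decide) (by decide) (by decide) hW hW'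
  rw [QS.upd_ONE] at g1
  have g2 : Runs (.pop .ONE) { s with ONE := List.replicate w false ++ s.st .ONE }.st
      { s with ONE := zer (w - 1) }.st 1 := by
    refine (Runs.pop _ _).conv ?_ le_rfl
    rw [QS.upd_ONE]
    have : (List.replicate w false ++ s.ONE).tail = zer (w - 1) := by
      rw [h1, List.append_nil]; exact List.tail_replicate
    show QS.st { s with ONE := (List.replicate w false ++ s.ONE).tail } = _
    rw [this]
  have g3 : Runs (.push .ONE true) { s with ONE := zer (w - 1) }.st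
      { s with ONE := lbits w 1 }.st 1 := by
    refine (Runs.push _ _ _).conv ?_ le_rfl
    rw [QS.upd_ONE, lbits_one hw]; rfl
  exact (g1.seq (g2.seq g3)).weaken (by omega)

/-- `P := |S| + 1` (from `P = 1`) -/
theorem mkP_runs {w n : ℕ} (hn : n + 1 < 2 ^ w) (s : QS) (hta : s.ta = []) (htb : s.tb = [])
    (hS : s.S = zer n) (hS' : s.S' = []) (hP : s.P = lbits w 1) :
    Runs (.forR .S .S' incPQ) s.st { s with P := lbits w (n + 1) }.st
      (n * (4 * w + 10) + 2) := by
  have h := forR_fam (p := incPQ) (r := QR.S) (r' := QR.S') (by decide) s.S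
    (fun k => { s with P := lbits w (k + 1) }.st) (4 * w + 6)
    (fun _ _ => rfl) (fun _ _ => hS') (by
      intro i hi u v
      rw [hS] at hi
      simp only [zer, List.length_replicate] at hi
      rw [QS.upd_S, QS.upd_Sp, QS.upd_S, QS.upd_Sp]
      exact incPQ_runs (by omega) _ hta htb rfl)
  have hl : s.S.length = n := by rw [hS]; simp [zer]
  rw [hl, Nat.zero_add, ← hP] at h
  exact h.weaken (by ring_nf; omega)

/-- `X := OM ^ |S| mod P` (from `X = 1`) -/
theorem powS_runs {w p v n : ℕ} (hv : v < p) (hp1 : 1 < p) (h2 : 2 * p ≤ 2 ^ w) (s : QS)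
    (hc : s.Cl) (hO : s.OM = lbits w v) (hP : s.P = lbits w p) (hacc : s.ACC = [])
    (hS : s.S = zer n) (hS' : s.S' = []) (hX : s.X = lbits w 1) :
    Runs (.forR .S .S' stepPow) s.st { s with X := lbits w (v ^ n % p) }.st
      (n * (20 * w ^ 2 + 58 * w + 11) + 2) := by
  have h := forR_fam (p := stepPow) (r := QR.S) (r' := QR.S') (by decide) s.S
    (fun k => { s with X := lbits w (v ^ k % p) }.st) (20 * w ^ 2 + 58 * w + 7)
    (fun _ _ => rfl) (fun _ _ => hS') (by
      intro i hi a b
      rw [QS.upd_S, QS.upd_Sp, QS.upd_S, QS.upd_Sp]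
      have h3 := stepPow_runs (Nat.mod_lt (v ^ i) (by omega)) hv h2
        { s with X := lbits w (v ^ i % p), S := a, S' := b } (hc.of_eq ⟨rfl, rfl, rfl, rfl, rfl, rfl, rfl, rfl, rfl⟩) rfl hO hP hacc
      rw [show v ^ i % p * v % p = v ^ (i + 1) % p by rw [pow_succ, Nat.mod_mul_mod]] at h3
      exact h3)
  have hl : s.S.length = n := by rw [hS]; simp [zer]
  rw [hl, pow_zero, Nat.mod_eq_of_lt hp1, ← hX] at h
  exact h.weaken (by ring_nf; omega)

/-- From the rulers `S = p - 1` and `W`: `P := p`, `OM :=` least primitive root,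
`X := OM^(p-2) mod p`. -/
noncomputable def rootP : Prog QR Bool :=
  .seq mkOne (.seq (.copy .ONE .ta .P) (.seq (.forR .S .S' incPQ) (.seq (.copy .ONE .ta .OM)
    (.seq searchLoop (.seq (.pop .FL) (.seq (.copy .ONE .ta .X) (.seq (.pop .S)
      (.seq (.forR .S .S' stepPow) (.seq (.push .S false) (.clear .ONE))))))))))

theorem rootP_runs {W p : ℕ} (hp : p.Prime) (hP : 2 * p ≤ 2 ^ W) :
    Runs rootP (QS.mk (zer (p - 1)) [] (zer W) [] [] [] [] []
      [] [] [] [] [] [] [] [] [] [] [] [] []).st
      (QS.mk (zer (p - 1)) [] (zer W) [] (lbits W (lroot p ^ (p - 2) % p)) (lbits W (lroot p))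
      (lbits W p) [] [] [] [] [] [] [] [] [] [] [] [] [] []).st
      (200 * (p * p * (W * W))) := by
  have hp2 := hp.two_le
  have hW : 1 ≤ W := by
    rcases Nat.eq_zero_or_pos W with h | h
    · rw [h, pow_zero] at hP; omega
    · exact h
  have g1 := mkOne_runs hW (QS.mk (zer (p - 1)) [] (zer W) [] [] [] [] []
      [] [] [] [] [] [] [] [] [] [] [] [] []) rfl rfl rfl
  have g2 : Runs (.copy .ONE .ta .P) (QS.mk (zer (p - 1)) [] (zer W) [] [] [] [] (lbits W 1)
      [] [] [] [] [] [] [] [] [] [] [] [] []).st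
      (QS.mk (zer (p - 1)) [] (zer W) [] [] [] (lbits W 1) (lbits W 1)
      [] [] [] [] [] [] [] [] [] [] [] [] []).st (4 * W + 2) :=
    (QS.copy_ONEP _ rfl).conv (by simp only [List.append_nil]) (by simp only [len_lbits]; rfl)
  have g3 := mkP_runs (w := W) (n := p - 1) (by omega)
    (QS.mk (zer (p - 1)) [] (zer W) [] [] [] (lbits W 1) (lbits W 1)
      [] [] [] [] [] [] [] [] [] [] [] [] []) rfl rfl rfl rfl rfl
  rw [show p - 1 + 1 = p by omega] at g3
  have g4 : Runs (.copy .ONE .ta .OM) (QS.mk (zer (p - 1)) [] (zer W) [] [] [] (lbits W p)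
      (lbits W 1) [] [] [] [] [] [] [] [] [] [] [] [] []).st
      (QS.mk (zer (p - 1)) [] (zer W) [] [] (lbits W 1) (lbits W p) (lbits W 1)
      [] [] [] [] [] [] [] [] [] [] [] [] []).st (4 * W + 2) :=
    (QS.copy_ONEOM _ rfl).conv (by simp only [List.append_nil]) (by simp only [len_lbits]; rfl)
  have g5 := searchLoop_runs (W := W) hp hP (zer W)
  have g6 : Runs (.pop .FL) (QS.mk (zer (p - 1)) [] (zer W) [] [] (lbits W (lroot p))
      (lbits W p) (lbits W 1) [] [true] [] [] [] [] [] [] [] [] [] [] []).st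
      (QS.mk (zer (p - 1)) [] (zer W) [] [] (lbits W (lroot p))
      (lbits W p) (lbits W 1) [] [] [] [] [] [] [] [] [] [] [] [] []).st 1 :=
    (Runs.pop _ _).conv (by rw [QS.upd_FL]; rfl) le_rfl
  have g7 : Runs (.copy .ONE .ta .X) (QS.mk (zer (p - 1)) [] (zer W) [] [] (lbits W (lroot p))
      (lbits W p) (lbits W 1) [] [] [] [] [] [] [] [] [] [] [] [] []).st
      (QS.mk (zer (p - 1)) [] (zer W) [] (lbits W 1) (lbits W (lroot p)) (lbits W p) (lbits W 1)
      [] [] [] [] [] [] [] [] [] [] [] [] []).st (4 * W + 2) :=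
    (QS.copy_ONEX _ rfl).conv (by simp only [List.append_nil]) (by simp only [len_lbits]; rfl)
  have e1 : zer (p - 1) = false :: zer (p - 2) := by rw [← zer_succ]; congr 1; omega
  have g8 : Runs (.pop .S) (QS.mk (zer (p - 1)) [] (zer W) [] (lbits W 1) (lbits W (lroot p))
      (lbits W p) (lbits W 1) [] [] [] [] [] [] [] [] [] [] [] [] []).st
      (QS.mk (zer (p - 2)) [] (zer W) [] (lbits W 1) (lbits W (lroot p)) (lbits W p) (lbits W 1)
      [] [] [] [] [] [] [] [] [] [] [] [] []).st 1 :=
    (Runs.pop _ _).conv (by rw [QS.upd_S, e1]; rfl) le_rfl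
  have g9 := powS_runs (w := W) (p := p) (v := lroot p) (n := p - 2) (lroot_lt hp) hp.one_lt hP
    (QS.mk (zer (p - 2)) [] (zer W) [] (lbits W 1) (lbits W (lroot p)) (lbits W p) (lbits W 1)
      [] [] [] [] [] [] [] [] [] [] [] [] []) ⟨rfl, rfl, rfl, rfl, rfl, rfl, rfl, rfl, rfl⟩
      rfl rfl rfl rfl rfl rfl
  have g10 : Runs (.push .S false) (QS.mk (zer (p - 2)) [] (zer W) []
      (lbits W (lroot p ^ (p - 2) % p)) (lbits W (lroot p)) (lbits W p) (lbits W 1)
      [] [] [] [] [] [] [] [] [] [] [] [] []).st (QS.mk (zer (p - 1)) [] (zer W) []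
      (lbits W (lroot p ^ (p - 2) % p)) (lbits W (lroot p)) (lbits W p) (lbits W 1)
      [] [] [] [] [] [] [] [] [] [] [] [] []).st 1 :=
    (Runs.push _ _ _).conv (by rw [QS.upd_S, e1]; rfl) le_rfl
  have g11 : Runs (.clear .ONE) (QS.mk (zer (p - 1)) [] (zer W) []
      (lbits W (lroot p ^ (p - 2) % p)) (lbits W (lroot p)) (lbits W p) (lbits W 1)
      [] [] [] [] [] [] [] [] [] [] [] [] []).st (QS.mk (zer (p - 1)) [] (zer W) []
      (lbits W (lroot p ^ (p - 2) % p)) (lbits W (lroot p)) (lbits W p) []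
      [] [] [] [] [] [] [] [] [] [] [] [] []).st (2 * W + 1) :=
    (Runs.clear _ _).conv (by rw [QS.upd_ONE]) (by
      show 2 * (lbits W 1).length + 1 ≤ _
      rw [len_lbits])
  refine (g1.seq (g2.seq (g3.seq (g4.seq (g5.seq (g6.seq (g7.seq (g8.seq (g9.seq
      (g10.seq g11)))))))))).weaken ?_
  obtain ⟨q, rfl⟩ := Nat.exists_eq_add_of_le' hp2
  obtain ⟨w, rfl⟩ := Nat.exists_eq_add_of_le' hW
  simp only [show q + 2 - 1 = q + 1 by omega, show q + 2 - 2 = q by omega]
  have m1 : 0 ≤ q * w := Nat.zero_le _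
  have m2 : 0 ≤ q * w ^ 2 := Nat.zero_le _
  have m3 : 0 ≤ q ^ 2 * w := Nat.zero_le _
  have m4 : 0 ≤ q ^ 2 * w ^ 2 := Nat.zero_le _
  have m5 : 0 ≤ q ^ 2 := Nat.zero_le _
  have m6 : 0 ≤ w ^ 2 := Nat.zero_le _
  nlinarith [m1, m2, m3, m4, m5, m6]

end Vale.Agent.P338.H666
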