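import Vale.Agent.P338.H666.Select
import Vale.Agent.P338.H931.Parts

/-!
# The programs BITOP and FIX over the global registers
-/

namespace Vale.Agent.P338.H666

open Vale.Agent.P338 Vale.Agent.P338.E

/-- registers of the bit operation -/
def eBit : SR → Reg
  | .X => .X | .Y => .t0 | .O => .t1 | .T => .t2 | .U => .t3 | .M => .r2tn | .M' => .t4
  | .W => .r2t | .W' => .t5 | .J => .t6 | .J' => .t7 | .I => .t8 | .I' => .t9
  | .K => .t10 | .K' => .t11 | .N => .t12 | .N' => .t13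

/-- registers of the fix pass -/
def eFix : SR → Reg
  | .X => .X | .Y => .t0 | .O => .t1 | .T => .t2 | .U => .t3 | .M => .rRot | .M' => .t4
  | .W => .rB | .W' => .t5 | .J => .t6 | .J' => .t7 | .I => .t8 | .I' => .t9
  | .K => .rK | .K' => .t11 | .N => .rnK | .N' => .t13

theorem eBit_injective : Function.Injective eBit := by
  intro a b h
  cases a <;> cases b <;> first | rfl | (exact absurd h (by decide))

theorem eFix_injective : Function.Injective eFix := by
  intro a b h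
  cases a <;> cases b <;> first | rfl | (exact absurd h (by decide))

/-- `BITOP`: `X := bitop n t X`; rulers `r2t = 2^t`, `r2tn = 2^t * n`. -/
noncomputable def BITOP : Prog Reg Bool := bitP.ren eBit

/-- `FIX`: `X := fix n b Gr X`; rulers `rB rK rnK rRot`. -/
noncomputable def FIX : Prog Reg Bool := fixP.ren eFix

theorem BITOP_runs (s : Store Reg Bool) (n t : ℕ) (hn : 2 ^ (t + 1) ∣ n) (ht : TmpClean s)
    (h1 : s .r2t = zer (2 ^ t)) (h2 : s .r2tn = zer (2 ^ t * n))
    (hX : (s .X).length = n * n) :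
    Runs BITOP s (Function.update s .X (bitop n t (s .X))) (40 * (s .X).length + 40) := by
  have h := bitP_runs (SS.mk (s .X) [] [] [] [] (s .r2tn) [] (s .r2t) [] [] [] [] [] [] [] [] [])
    n t hn hX (by rw [h1]; simp [zer]) (by rw [h2]; simp [zer]) rfl rfl rfl rfl rfl rfl rfl rfl
    rfl rfl
  rw [← upd_X] at h
  exact h.ren_update eBit_injective s (by
    intro l
    cases l <;> first | rfl | exact ht _ rfl)

theorem FIX_runs (s : Store Reg Bool) (n b Gr : ℕ) (hb : 1 ≤ b) (hn0 : 1 ≤ n) (hG : 1 ≤ Gr)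
    (hn : 2 * b ∣ n) (ht : TmpClean s) (hB : s .rB = zer b) (hK : s .rK = zer (2 * b))
    (hnK : s .rnK = zer (n / (2 * b))) (hR : s .rRot = zer (2 * b * b * n))
    (hX : (s .X).length = Gr * (2 * b * (n * b))) :
    Runs FIX s (Function.update s .X (E.fix n b Gr (s .X))) (100 * (s .X).length + 100) := by
  have h := fixP_runs (SS.mk (s .X) [] [] [] [] (s .rRot) [] (s .rB) [] [] [] [] [] (s .rK) []
    (s .rnK) []) n b Gr hb hn0 hG hn hX (by rw [hB]; simp [zer]) (by rw [hR]; simp [zer]) hK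
    (by rw [hnK]; simp [zer]) rfl rfl rfl rfl rfl rfl rfl rfl rfl rfl rfl rfl
  rw [← upd_X] at h
  exact h.ren_update eFix_injective s (by
    intro l
    cases l <;> first | rfl | exact ht _ rfl)

/-- `BITOP` in the form of `Parts`. -/
theorem hBITOP (s : Store Reg Bool) (L t m : ℕ) (htL : t < L) (hm : 2 ^ L * 2 ^ L ≤ m)
    (ht : TmpClean s) (_ : s .rn = zer (2 ^ L)) (h1 : s .r2t = zer (2 ^ t))
    (h2 : s .r2tn = zer (2 ^ t * 2 ^ L)) (hX : (s .X).length = 2 ^ L * 2 ^ L) :
    Runs BITOP s (Function.update s .X (E.bitop (2 ^ L) t (s .X))) (80 * m) := by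
  refine (BITOP_runs s (2 ^ L) t (pow_dvd_pow 2 htL) ht h1 h2 hX).weaken ?_
  have : 1 ≤ 2 ^ L * 2 ^ L := Nat.one_le_iff_ne_zero.2 (by positivity)
  rw [hX]; omega

/-- `FIX` in the form of `Parts` (with `0 < Gr`). -/
theorem hFIX (s : Store Reg Bool) (mu n Gr m : ℕ) (hn : n = 2 * 2 ^ mu * 2 ^ mu * Gr)
    (hG : 0 < Gr) (hm : n * n ≤ m) (ht : TmpClean s) (hR : Rul s n (2 ^ mu))
    (hX : (s .X).length = n * n) :
    Runs FIX s (Function.update s .X (E.fix n (2 ^ mu) Gr (s .X))) (200 * m) := by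
  have hb : 1 ≤ 2 ^ mu := Nat.one_le_two_pow
  have hn0 : 1 ≤ n := by
    rw [hn]; exact Nat.one_le_iff_ne_zero.2 (by positivity)
  have h1 : 1 ≤ n * n := Nat.one_le_iff_ne_zero.2 (by positivity)
  refine (FIX_runs s n (2 ^ mu) Gr hb hn0 hG ⟨2 ^ mu * Gr, by rw [hn]; ring⟩ ht hR.rB hR.rK
    hR.rnK hR.rRot ?_).weaken ?_
  · rw [hX]
    nth_rewrite 1 [hn]
    ring
  · rw [hX]; omega

end Vale.Agent.P338.H666
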